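import Vale.Agent.P361.Fourier

/-!
# The sharp spin-wave lower bound on the spontaneous magnetization deficit
-/

open scoped BigOperators
open Filter Topology MeasureTheory

set_option linter.unusedSectionVars false

namespace Vale.Agent.P361

/-- finite-volume magnetization -/
noncomputable def mag (n N : ℕ) (β h : ℝ) : ℝ :=
  (∑ x, gexp β (hamiltonian n (nearest (2 * N + 1)) h) (opZ n x)) / (Fintype.card (Box (2 * N + 1)) : ℝ)

theorem pressure_subgradient (n N : ℕ) {β : ℝ} (hβ : 0 < β) (h h' : ℝ) :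
    pressure n N β h + (h' - h) * mag n N β h ≤ pressure n N β h' := by
  have hK := hamiltonian_herm (n := n) (nearest (2 * N + 1)) (nearest_symm _) (nearest_irrefl _) h
  have hK' := hamiltonian_herm (n := n) (nearest (2 * N + 1)) (nearest_symm _) (nearest_irrefl _) h'
  have key := log_gz_ge hK (β := β) hK'
  have e : hamiltonian n (nearest (2 * N + 1)) h' - hamiltonian n (nearest (2 * N + 1)) h =
      ((-(h' - h) : ℝ) : ℂ) • ∑ x, opZ n x := by
    rw [hamiltonian_eq, hamiltonian_eq]; push_cast; module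
  rw [e, gexp_smul, gexp_sum] at key
  have hc : (0 : ℝ) < ((2 * N + 1) ^ 3 : ℕ) := by exact_mod_cast pow_pos (2 * N).succ_pos 3
  have hcard : (Fintype.card (Box (2 * N + 1)) : ℝ) = (((2 * N + 1) ^ 3 : ℕ) : ℝ) := by simp
  rw [pressure_eq, pressure_eq, mag, hcard, ← sub_nonneg]
  have : lz (Box (2 * N + 1)) n (nearest (2 * N + 1)) β h' / (β * ((2 * N + 1) ^ 3 : ℕ)) -
      (lz (Box (2 * N + 1)) n (nearest (2 * N + 1)) β h / (β * ((2 * N + 1) ^ 3 : ℕ)) +
        (h' - h) * ((∑ x, gexp β (hamiltonian n (nearest (2 * N + 1)) h) (opZ n x)) /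
          (((2 * N + 1) ^ 3 : ℕ) : ℝ))) =
      (lz (Box (2 * N + 1)) n (nearest (2 * N + 1)) β h' - lz (Box (2 * N + 1)) n (nearest (2 * N + 1)) β h
        - β * ((h' - h) * ∑ x, gexp β (hamiltonian n (nearest (2 * N + 1)) h) (opZ n x))) /
        (β * ((2 * N + 1) ^ 3 : ℕ)) := by
    field_simp; ring
  rw [this]
  exact div_nonneg (by rw [lz, lz]; linarith) (mul_pos hβ hc).le

theorem mag_abs_le (n N : ℕ) (β h : ℝ) : |mag n N β h| ≤ (n : ℝ) / 2 := by
  have hK := hamiltonian_herm (n := n) (nearest (2 * N + 1)) (nearest_symm _) (nearest_irrefl _) h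
  rw [mag, abs_div, Nat.abs_cast, div_le_iff₀ (by exact_mod_cast Fintype.card_pos)]
  refine (Finset.abs_sum_le_sum_abs _ _).trans ?_
  refine (Finset.sum_le_sum fun x _ => abs_le.mpr ⟨neg_le_opZ hK (β := β) x, opZ_le hK (β := β) x⟩).trans
    (le_of_eq ?_)
  simp [mul_comm]

/-- the limiting pressure -/
noncomputable def freeEnergy (n : ℕ) (β h : ℝ) : ℝ := limUnder atTop fun N => pressure n N β h

theorem freeEnergy_spec (n : ℕ) {β : ℝ} (hβ : 0 < β) (h : ℝ) :
    Tendsto (fun N => pressure n N β h) atTop (𝓝 (freeEnergy n β h)) :=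
  tendsto_nhds_limUnder (pressure_tendsto n hβ h)

/-- slope from zero -/
noncomputable def slope0 (n : ℕ) (β h : ℝ) : ℝ := (freeEnergy n β h - freeEnergy n β 0) / h

/-- the spontaneous magnetization -/
noncomputable def mS (n : ℕ) (β : ℝ) : ℝ := sInf (slope0 n β '' Set.Ioi 0)

theorem slopeN_le_mag (n N : ℕ) {β h : ℝ} (hβ : 0 < β) (hh : 0 < h) :
    (pressure n N β h - pressure n N β 0) / h ≤ mag n N β h := by
  rw [div_le_iff₀ hh]
  have := pressure_subgradient n N hβ h 0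
  linarith

theorem slope0_tendsto (n : ℕ) {β : ℝ} (hβ : 0 < β) (h : ℝ) :
    Tendsto (fun N => (pressure n N β h - pressure n N β 0) / h) atTop (𝓝 (slope0 n β h)) :=
  ((freeEnergy_spec n hβ h).sub (freeEnergy_spec n hβ 0)).div_const h

theorem slope0_mono (n : ℕ) {β : ℝ} (hβ : 0 < β) : MonotoneOn (slope0 n β) (Set.Ioi 0) := by
  intro a (ha : 0 < a) b (hb : 0 < b) hab
  refine le_of_tendsto_of_tendsto' (slope0_tendsto n hβ a) (slope0_tendsto n hβ b) fun N => ?_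
  have h1 := slopeN_le_mag n N hβ ha
  have h2 := pressure_subgradient n N hβ a b
  rw [div_le_div_iff₀ ha hb]
  have h3 := mul_le_mul_of_nonneg_left h1 (sub_nonneg.mpr hab)
  have h4 : (pressure n N β a - pressure n N β 0) / a * a = pressure n N β a - pressure n N β 0 :=
    div_mul_cancel₀ _ ha.ne'
  have h5 : (b - a) * ((pressure n N β a - pressure n N β 0) / a) * a =
      (b - a) * (pressure n N β a - pressure n N β 0) := by rw [mul_assoc, h4]
  have h6 := mul_le_mul_of_nonneg_right (h3.trans (le_of_le_of_eq (le_of_eq rfl) rfl)) ha.le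
  rw [h5] at h6
  nlinarith

theorem slope0_bdd (n : ℕ) {β : ℝ} (hβ : 0 < β) : BddBelow (slope0 n β '' Set.Ioi 0) := by
  refine ⟨-((n : ℝ) / 2), ?_⟩
  rintro _ ⟨h, hh, rfl⟩
  refine ge_of_tendsto' (slope0_tendsto n hβ h) fun N => ?_
  rw [le_div_iff₀ (hh : 0 < h)]
  have h1 := pressure_subgradient n N hβ 0 h
  have h2 := mul_le_mul_of_nonneg_left (abs_le.mp (mag_abs_le n N β 0)).1 (le_of_lt (hh : 0 < h))
  linarith

theorem freeEnergy_hasDeriv (n : ℕ) {β : ℝ} (hβ : 0 < β) :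
    HasDerivWithinAt (freeEnergy n β) (mS n β) (Set.Ioi 0) 0 := by
  rw [hasDerivWithinAt_iff_tendsto_slope' Set.self_notMem_Ioi]
  refine ((slope0_mono n hβ).tendsto_nhdsGT (slope0_bdd n hβ)).congr' ?_
  filter_upwards with h
  rw [slope_def_field, sub_zero]; rfl

theorem mS_le_half (n : ℕ) {β : ℝ} (hβ : 0 < β) : mS n β ≤ (n : ℝ) / 2 := by
  refine (csInf_le (slope0_bdd n hβ) ⟨1, Set.mem_Ioi.mpr one_pos, rfl⟩).trans ?_
  refine le_of_tendsto' (slope0_tendsto n hβ 1) fun N => ?_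
  exact (slopeN_le_mag n N hβ one_pos).trans (abs_le.mp (mag_abs_le n N β 1)).2

theorem sum_exp_le_bose {y : ℝ} (hy : 0 < y) (J : ℕ) :
    ∑ j ∈ Finset.range J, Real.exp (-y) ^ (j + 1) ≤ 1 / (Real.exp y - 1) := by
  have hq0 := Real.exp_pos (-y)
  have hq1 : Real.exp (-y) < 1 := Real.exp_lt_one_iff.mpr (by linarith)
  have h1 : ∑ j ∈ Finset.range J, Real.exp (-y) ^ (j + 1) = Real.exp (-y) * ∑ j ∈ Finset.range J, Real.exp (-y) ^ j := by
    rw [Finset.mul_sum]; exact Finset.sum_congr rfl fun j _ => pow_succ' _ _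
  have h2 : 1 / (Real.exp y - 1) = Real.exp (-y) * (1 / (1 - Real.exp (-y))) := by
    rw [Real.exp_neg]
    have := Real.exp_pos y
    field_simp
  rw [h1, h2]
  refine mul_le_mul_of_nonneg_left ?_ hq0.le
  rw [geom_sum_eq hq1.ne, ← neg_div_neg_eq, neg_sub, neg_sub]
  gcongr
  linarith [pow_pos hq0 J]

theorem mag_bound (n N : ℕ) {β h μ : ℝ} (hβ : 0 < β) (hh : 0 < h) (hμ : 0 < μ) (hmag : μ ≤ mag n N β h)
    (J : ℕ) :
    μ * (∑ j ∈ Finset.range J, Real.exp (-(((j : ℝ) + 1) * β * h)) *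
      (max (gauss (((j : ℝ) + 1) * β * ((n : ℝ) / 2 * ((n : ℝ) - μ) / μ)) - 1 / (2 * (N : ℝ) + 1)) 0) ^ 3) ≤
      (n : ℝ) / 2 * ((n : ℝ) / 2 - μ) := by
  have hm0 : 0 < mag n N β h := hμ.trans_le hmag
  have hmS := (abs_le.mp (mag_abs_le n N β h)).2
  have hS : 0 ≤ (n : ℝ) / 2 := by positivity
  have key := magnon_bound (n := n) (nearest (2 * N + 1)) (nearest_symm _) (nearest_irrefl _) hh hβ
    (wave N) (disp N) (fun k => Finset.sum_nonneg fun j _ => sq_nonneg _) (wave_norm N)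
    (wave_complete N) (wave_lap N) (m := mag n N β h) rfl hm0
  set A := (n : ℝ) / 2 * ((n : ℝ) - μ) / μ with hA
  set m := mag n N β h
  have hAm : (n : ℝ) / 2 * ((n : ℝ) - m) / m ≤ A :=
    div_le_div₀ (mul_nonneg hS (by linarith)) (mul_le_mul_of_nonneg_left (by linarith) hS) hμ hmag
  have hA0 : 0 ≤ A := div_nonneg (mul_nonneg hS (by linarith)) hμ.le
  set c := (Fintype.card (Box (2 * N + 1)) : ℝ) with hc
  have hc0 : 0 < c := by rw [hc]; exact_mod_cast Fintype.card_pos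
  have per : ∀ k, ∑ j ∈ Finset.range J, Real.exp (-(((j : ℝ) + 1) * β * h)) *
      ∏ i, Real.exp (-(((j : ℝ) + 1) * β * A) * momentum N (k i) ^ 2) ≤
      1 / (Real.exp (β * (disp N k * ((n : ℝ) / 2) * ((n : ℝ) - m) / m + h)) - 1) := by
    intro k
    have hd : 0 ≤ disp N k := Finset.sum_nonneg fun i _ => sq_nonneg _
    have hx : 0 < β * (disp N k * A + h) := mul_pos hβ (by have := mul_nonneg hd hA0; linarith)
    have hx' : 0 < β * (disp N k * ((n : ℝ) / 2) * ((n : ℝ) - m) / m + h) := mul_pos hβ (by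
      have : 0 ≤ disp N k * ((n : ℝ) / 2) * ((n : ℝ) - m) / m :=
        div_nonneg (mul_nonneg (mul_nonneg hd hS) (by linarith)) hm0.le
      linarith)
    refine le_trans ?_ (one_div_le_one_div_of_le (by linarith [Real.one_lt_exp_iff.mpr hx'])
      (sub_le_sub_right (Real.exp_le_exp.mpr (mul_le_mul_of_nonneg_left (add_le_add
        ((le_of_eq (by ring)).trans (mul_le_mul_of_nonneg_left hAm hd)) le_rfl) hβ.le)) 1))
    refine le_trans (le_of_eq (Finset.sum_congr rfl fun j _ => ?_)) (sum_exp_le_bose hx J)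
    rw [← Real.exp_nat_mul, ← Real.exp_sum, ← Real.exp_add, ← Finset.mul_sum, ← disp]
    congr 1; push_cast; ring
  have hsum : ∑ j ∈ Finset.range J, Real.exp (-(((j : ℝ) + 1) * β * h)) *
      ((∑ v : Fin (2 * N + 1), Real.exp (-(((j : ℝ) + 1) * β * A) * momentum N v ^ 2)) /
        (2 * (N : ℝ) + 1)) ^ 3 ≤
      (∑ k, 1 / (Real.exp (β * (disp N k * ((n : ℝ) / 2) * ((n : ℝ) - m) / m + h)) - 1)) / c := by
    refine le_trans (le_of_eq ?_) (div_le_div_of_nonneg_right (Finset.sum_le_sum fun k _ => per k) hc0.le)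
    rw [Finset.sum_comm, Finset.sum_div]
    refine Finset.sum_congr rfl fun j _ => ?_
    rw [← Finset.mul_sum, ← Fintype.prod_sum
      (f := fun (_ : Fin 3) v => Real.exp (-(((j : ℝ) + 1) * β * A) * momentum N v ^ 2)),
      Finset.prod_const, Finset.card_univ, Fintype.card_fin, div_pow, mul_div_assoc, hc]
    simp
  have hmain : ∑ j ∈ Finset.range J, Real.exp (-(((j : ℝ) + 1) * β * h)) *
      (max (gauss (((j : ℝ) + 1) * β * A) - 1 / (2 * (N : ℝ) + 1)) 0) ^ 3 ≤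
      (∑ k, 1 / (Real.exp (β * (disp N k * ((n : ℝ) / 2) * ((n : ℝ) - m) / m + h)) - 1)) / c := by
    refine le_trans (Finset.sum_le_sum fun j _ => ?_) hsum
    refine mul_le_mul_of_nonneg_left (pow_le_pow_left₀ (le_max_right _ _) (max_le ?_ ?_) 3) (Real.exp_pos _).le
    · exact momentum_sum_ge N (by positivity)
    · exact div_nonneg (Finset.sum_nonneg fun v _ => (Real.exp_pos _).le) (by positivity)
  have h0 : 0 ≤ ∑ j ∈ Finset.range J, Real.exp (-(((j : ℝ) + 1) * β * h)) *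
      (max (gauss (((j : ℝ) + 1) * β * A) - 1 / (2 * (N : ℝ) + 1)) 0) ^ 3 :=
    Finset.sum_nonneg fun j _ => mul_nonneg (Real.exp_pos _).le (pow_nonneg (le_max_right _ _) 3)
  refine ((mul_le_mul hmag hmain h0 hm0.le).trans key).trans ?_
  exact mul_le_mul_of_nonneg_left (by linarith) hS

theorem deficit_bound (n : ℕ) {β μ : ℝ} (hβ : 0 < β) (hμ : 0 < μ) (hμm : μ < mS n β) (J : ℕ) :
    μ * ∑ j ∈ Finset.range J, gauss (((j : ℝ) + 1) * β * ((n : ℝ) / 2 * ((n : ℝ) - μ) / μ)) ^ 3 ≤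
      (n : ℝ) / 2 * ((n : ℝ) / 2 - μ) := by
  set A := (n : ℝ) / 2 * ((n : ℝ) - μ) / μ
  have hN : Tendsto (fun N : ℕ => 1 / (2 * (N : ℝ) + 1)) atTop (𝓝 0) := by
    refine squeeze_zero (fun N => by positivity) (fun N => ?_) tendsto_one_div_add_atTop_nhds_zero_nat
    gcongr; linarith
  have step : ∀ h : ℝ, 0 < h →
      μ * ∑ j ∈ Finset.range J, Real.exp (-(((j : ℝ) + 1) * β * h)) * gauss (((j : ℝ) + 1) * β * A) ^ 3 ≤
        (n : ℝ) / 2 * ((n : ℝ) / 2 - μ) := by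
    intro h hh
    have hev : ∀ᶠ N in atTop, μ ≤ mag n N β h := by
      filter_upwards [(slope0_tendsto n hβ h).eventually_const_lt
        (hμm.trans_le (csInf_le (slope0_bdd n hβ) ⟨h, hh, rfl⟩))] with N hN
      exact hN.le.trans (slopeN_le_mag n N hβ hh)
    have hlim : Tendsto (fun N : ℕ => μ * ∑ j ∈ Finset.range J, Real.exp (-(((j : ℝ) + 1) * β * h)) *
        (max (gauss (((j : ℝ) + 1) * β * A) - 1 / (2 * (N : ℝ) + 1)) 0) ^ 3) atTop
        (𝓝 (μ * ∑ j ∈ Finset.range J, Real.exp (-(((j : ℝ) + 1) * β * h)) * gauss (((j : ℝ) + 1) * β * A) ^ 3)) := by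
      refine (tendsto_finsetSum _ fun j _ => ?_).const_mul μ
      have := ((tendsto_const_nhds (x := gauss (((j : ℝ) + 1) * β * A))).sub hN).max (tendsto_const_nhds (x := (0:ℝ)))
      rw [sub_zero, max_eq_left (gauss_nonneg _)] at this
      exact (this.pow 3).const_mul _
    exact le_of_tendsto hlim (hev.mono fun N hN => mag_bound n N hβ hh hμ hN J)
  have hc : Continuous fun h : ℝ => μ * ∑ j ∈ Finset.range J,
      Real.exp (-(((j : ℝ) + 1) * β * h)) * gauss (((j : ℝ) + 1) * β * A) ^ 3 := by fun_prop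
  have := (hc.tendsto 0).mono_left (nhdsWithin_le_nhds (s := Set.Ioi 0))
  simp only [mul_zero, neg_zero, Real.exp_zero, one_mul] at this
  exact le_of_tendsto this (eventually_nhdsWithin_of_forall step)

theorem sqrt_mul_gauss : Tendsto (fun a => Real.sqrt a * gauss a) atTop (𝓝 (1 / (2 * Real.sqrt Real.pi))) := by
  have hint : IntegrableOn (fun u : ℝ => Real.exp (-(1 : ℝ) * u ^ 2)) (Set.Ioi 0) :=
    (integrable_exp_neg_mul_sq one_pos).integrableOn
  have hlim := (intervalIntegral_tendsto_integral_Ioi 0 hint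
    (Real.tendsto_sqrt_atTop.atTop_mul_const Real.pi_pos)).const_mul Real.pi⁻¹
  rw [integral_gaussian_Ioi] at hlim
  have e : Real.pi⁻¹ * (Real.sqrt (Real.pi / 1) / 2) = 1 / (2 * Real.sqrt Real.pi) := by
    rw [div_one]
    field_simp
    rw [Real.sq_sqrt Real.pi_pos.le]
  rw [e] at hlim
  refine hlim.congr' ?_
  filter_upwards [eventually_ge_atTop (0 : ℝ)] with a ha
  have := intervalIntegral.smul_integral_comp_mul_left (fun u => Real.exp (-(1 : ℝ) * u ^ 2))
    (c := Real.sqrt a) (a := 0) (b := Real.pi)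
  rw [mul_zero, smul_eq_mul] at this
  have hcg : ∫ t in (0:ℝ)..Real.pi, Real.exp (-(1 : ℝ) * (Real.sqrt a * t) ^ 2) =
      ∫ t in (0:ℝ)..Real.pi, Real.exp (-a * t ^ 2) :=
    intervalIntegral.integral_congr fun t _ => by
      simp only [mul_pow, Real.sq_sqrt ha]; congr 1; ring
  rw [gauss, ← this, hcg]; ring

theorem rpow_three_halves {x : ℝ} (hx : 0 ≤ x) : x ^ (3 / 2 : ℝ) = Real.sqrt x ^ 3 := by
  rw [Real.sqrt_eq_rpow, ← Real.rpow_natCast (x ^ (1 / 2 : ℝ)) 3, ← Real.rpow_mul hx]; norm_num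

theorem gauss_cube_sum (A : ℝ) (hA : 0 < A) (J : ℕ) :
    Tendsto (fun β => β ^ (3 / 2 : ℝ) * ∑ j ∈ Finset.range J, gauss (((j : ℝ) + 1) * β * A) ^ 3) atTop
      (𝓝 ((∑ j ∈ Finset.range J, 1 / ((j : ℝ) + 1) ^ (3 / 2 : ℝ)) /
        (8 * Real.pi ^ (3 / 2 : ℝ) * A ^ (3 / 2 : ℝ)))) := by
  rw [Finset.sum_div]
  simp only [Finset.mul_sum]
  refine tendsto_finsetSum _ fun j _ => ?_
  have hc : (0 : ℝ) < ((j : ℝ) + 1) * A := by positivity
  have h1 : Tendsto (fun β : ℝ => ((j : ℝ) + 1) * β * A) atTop atTop :=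
    (tendsto_id.const_mul_atTop (by positivity : (0 : ℝ) < (j : ℝ) + 1)).atTop_mul_const hA
  have h2 := ((sqrt_mul_gauss.comp h1).pow 3).div_const (Real.sqrt (((j : ℝ) + 1) * A) ^ 3)
  have e : (1 / (2 * Real.sqrt Real.pi)) ^ 3 / Real.sqrt (((j : ℝ) + 1) * A) ^ 3 =
      1 / ((j : ℝ) + 1) ^ (3 / 2 : ℝ) / (8 * Real.pi ^ (3 / 2 : ℝ) * A ^ (3 / 2 : ℝ)) := by
    rw [rpow_three_halves (by positivity), rpow_three_halves Real.pi_pos.le, rpow_three_halves hA.le,
      Real.sqrt_mul (by positivity)]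
    field_simp
    ring
  rw [e] at h2
  refine h2.congr' ?_
  filter_upwards [eventually_ge_atTop (0 : ℝ)] with β hβ
  simp only [Function.comp_apply]
  rw [rpow_three_halves hβ, show ((j : ℝ) + 1) * β * A = β * (((j : ℝ) + 1) * A) by ring,
    Real.sqrt_mul hβ]
  have := Real.sqrt_pos.mpr hc
  field_simp

theorem gauss_antitone {a b : ℝ} (hab : a ≤ b) : gauss b ≤ gauss a := by
  refine mul_le_mul_of_nonneg_left ?_ (inv_nonneg.mpr Real.pi_pos.le)
  refine intervalIntegral.integral_mono_on Real.pi_pos.le (Continuous.intervalIntegrable (by fun_prop) _ _)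
    (Continuous.intervalIntegrable (by fun_prop) _ _) fun t _ => ?_
  exact Real.exp_le_exp.mpr (mul_le_mul_of_nonneg_right (neg_le_neg hab) (sq_nonneg t))

theorem deficit_asymptotic (n : ℕ) (hn : 1 ≤ n) {ε : ℝ} (hε : 0 < ε) :
    ∀ᶠ β in atTop, blochConstant n - ε ≤ β ^ (3 / 2 : ℝ) * ((n : ℝ) / 2 - mS n β) := by
  set S := (n : ℝ) / 2 with hSd
  have hS : 0 < S := div_pos (by exact_mod_cast hn) two_pos
  have hn2 : (n : ℝ) = 2 * S := by rw [hSd]; ring
  set T : ℕ → ℝ := fun J => ∑ j ∈ Finset.range J, 1 / ((j : ℝ) + 1) ^ (3 / 2 : ℝ)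
  set P := 8 * Real.pi ^ (3 / 2 : ℝ) with hP
  have hsummable : Summable fun j : ℕ => 1 / ((j : ℝ) + 1) ^ (3 / 2 : ℝ) := by
    have := (summable_nat_add_iff 1).mpr (Real.summable_one_div_nat_rpow.mpr (by norm_num : (1 : ℝ) < 3 / 2))
    simpa using this
  have hT := (hsummable.hasSum.tendsto_sum_nat.div_const (P * S ^ (3 / 2 : ℝ)))
  have hK : blochConstant n = (∑' j : ℕ, 1 / ((j : ℝ) + 1) ^ (3 / 2 : ℝ)) / (P * S ^ (3 / 2 : ℝ)) := rfl
  obtain ⟨J, hJ⟩ := (hT.eventually_const_lt (show blochConstant n - ε / 4 <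
    (∑' j : ℕ, 1 / ((j : ℝ) + 1) ^ (3 / 2 : ℝ)) / (P * S ^ (3 / 2 : ℝ)) by rw [← hK]; linarith)).exists
  -- continuity in the auxiliary parameter
  set a : ℝ → ℝ := fun δ => S * (2 * S - S * (1 - δ)) / (S * (1 - δ))
  have ha0 : a 0 = S := by simp only [a]; field_simp; ring
  have hca : ContinuousAt a 0 := by
    apply ContinuousAt.div <;> first | fun_prop | (simp; exact hS.ne')
  have hF : ContinuousAt (fun δ => (1 - δ) * (T J / (P * a δ ^ (3 / 2 : ℝ)))) 0 := by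
    refine (continuousAt_const.sub continuousAt_id).mul (continuousAt_const.div
      (continuousAt_const.mul (hca.rpow_const (Or.inl (by rw [ha0]; exact hS.ne')))) ?_)
    rw [ha0]; positivity
  have hF0 : blochConstant n - ε / 2 < (fun δ => (1 - δ) * (T J / (P * a δ ^ (3 / 2 : ℝ)))) 0 := by
    simp only [sub_zero, one_mul, ha0]; linarith
  obtain ⟨δ, hδF, hδ0, hδ1⟩ := (((hF.tendsto.eventually_const_lt hF0).filter_mono
    (nhdsWithin_le_nhds (s := Set.Ioi (0 : ℝ)))).and (Filter.Eventually.and (self_mem_nhdsWithin : Set.Ioi (0 : ℝ) ∈ 𝓝[>] (0 : ℝ))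
      (nhdsWithin_le_nhds (Iio_mem_nhds (one_pos : (0:ℝ) < 1))))).exists
  change 0 < δ at hδ0
  change δ < 1 at hδ1
  have haδ : 0 < a δ := div_pos (mul_pos hS (by nlinarith)) (mul_pos hS (by linarith))
  have hlim := ((gauss_cube_sum (a δ) haδ J).const_mul (1 - δ))
  have e1 := hlim.eventually_const_lt hδF
  have e2 : ∀ᶠ β : ℝ in atTop, β ^ (-(1 / 2) : ℝ) < ε / 2 :=
    (tendsto_rpow_neg_atTop (by norm_num : (0:ℝ) < 1 / 2)).eventually_lt_const (by linarith)
  have e3 : ∀ᶠ β : ℝ in atTop, blochConstant n < β ^ (3 / 2 : ℝ) * (S * δ / 2) :=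
    ((tendsto_rpow_atTop (by norm_num : (0:ℝ) < 3 / 2)).atTop_mul_const (by positivity)).eventually_gt_atTop _
  have e4 : ∀ᶠ β : ℝ in atTop, β ^ (-2 : ℝ) < S * δ / 2 :=
    (tendsto_rpow_neg_atTop (by norm_num : (0:ℝ) < 2)).eventually_lt_const (by positivity)
  filter_upwards [e1, e2, e3, e4, eventually_gt_atTop (0 : ℝ)] with β h1 h2 h3 h4 hβ
  have hb : 0 < β ^ (3 / 2 : ℝ) := Real.rpow_pos_of_pos hβ _
  have hb2 : β ^ (3 / 2 : ℝ) * β ^ (-2 : ℝ) = β ^ (-(1 / 2) : ℝ) := by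
    rw [← Real.rpow_add hβ]; norm_num
  rcases le_or_gt (mS n β) (S * (1 - δ / 2)) with hm | hm
  · have := mul_le_mul_of_nonneg_left (show S * δ / 2 ≤ S - mS n β by linarith) hb.le
    linarith
  set μ := mS n β - β ^ (-2 : ℝ) with hμd
  have hp : 0 < β ^ (-2 : ℝ) := Real.rpow_pos_of_pos hβ _
  have hμ1 : S * (1 - δ) ≤ μ := by rw [hμd]; linarith
  have hμ0 : 0 < μ := lt_of_lt_of_le (mul_pos hS (by linarith)) hμ1
  have hμm : μ < mS n β := by rw [hμd]; linarith
  have hd := deficit_bound n hβ hμ0 hμm J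
  have hA : (n : ℝ) / 2 * ((n : ℝ) - μ) / μ ≤ a δ := by
    simp only [a]; rw [← hSd, hn2]
    refine div_le_div₀ (mul_nonneg hS.le (by nlinarith)) (mul_le_mul_of_nonneg_left (by linarith) hS.le)
      (mul_pos hS (by linarith)) hμ1
  have hG : S * (1 - δ) * ∑ j ∈ Finset.range J, gauss (((j : ℝ) + 1) * β * a δ) ^ 3 ≤ S * (S - μ) := by
    refine le_trans (mul_le_mul hμ1 (Finset.sum_le_sum fun j _ => ?_)
      (Finset.sum_nonneg fun j _ => pow_nonneg (gauss_nonneg _) 3) hμ0.le) hd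
    exact pow_le_pow_left₀ (gauss_nonneg _) (gauss_antitone (mul_le_mul_of_nonneg_left hA (by positivity))) 3
  have hG' : (1 - δ) * ∑ j ∈ Finset.range J, gauss (((j : ℝ) + 1) * β * a δ) ^ 3 ≤ S - μ :=
    le_of_mul_le_mul_left (by rw [← mul_assoc]; exact hG) hS
  have hG'' := mul_le_mul_of_nonneg_left hG' hb.le
  have h5 : β ^ (3 / 2 : ℝ) * (S - μ) = β ^ (3 / 2 : ℝ) * (S - mS n β) + β ^ (-(1 / 2) : ℝ) := by
    rw [hμd, ← hb2]; ring
  linarith

end Vale.Agent.P361
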