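import Mathlib

/-!
# The quantum Heisenberg ferromagnet in a cubic box with free boundary conditions
-/

open scoped BigOperators

namespace Vale.Agent.P361

/-- `S³` for spin `S = n / 2`: `diag (S, S - 1, …, -S)`. -/
noncomputable def spinZ (n : ℕ) : Matrix (Fin (n + 1)) (Fin (n + 1)) ℂ :=
  Matrix.diagonal fun j => ((((n : ℝ) / 2 - (j.val : ℝ)) : ℝ) : ℂ)

/-- `S⁺ = S¹ + i S²` in the standard basis. -/
noncomputable def spinPlus (n : ℕ) : Matrix (Fin (n + 1)) (Fin (n + 1)) ℂ :=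
  Matrix.of fun i j =>
    if i.val + 1 = j.val then ((Real.sqrt ((j.val : ℝ) * ((n : ℝ) + 1 - (j.val : ℝ))) : ℝ) : ℂ)
    else 0

/-- The spin matrices `S¹, S², S³`. -/
noncomputable def spinMat (n : ℕ) : Fin 3 → Matrix (Fin (n + 1)) (Fin (n + 1)) ℂ :=
  ![(1 / 2 : ℂ) • (spinPlus n + (spinPlus n).conjTranspose),
    (-Complex.I / 2) • (spinPlus n - (spinPlus n).conjTranspose),
    spinZ n]

variable {V : Type} [Fintype V] [DecidableEq V] {n : ℕ}

/-- The one-site operator `A` acting at the site `x`. -/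
noncomputable def siteOp (x : V) (A : Matrix (Fin (n + 1)) (Fin (n + 1)) ℂ) :
    Matrix (V → Fin (n + 1)) (V → Fin (n + 1)) ℂ :=
  Matrix.of fun σ τ => if ∀ y, y ≠ x → σ y = τ y then A (σ x) (τ x) else 0

/-- `S_x · S_y`. -/
noncomputable def spinDot (n : ℕ) (x y : V) : Matrix (V → Fin (n + 1)) (V → Fin (n + 1)) ℂ :=
  ∑ a : Fin 3, siteOp x (spinMat n a) * siteOp y (spinMat n a)

/-- `H - h M` for a symmetric bond relation `r` (each bond counted once). -/
noncomputable def hamiltonian (n : ℕ) (r : V → V → Prop) [DecidableRel r] (h : ℝ) :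
    Matrix (V → Fin (n + 1)) (V → Fin (n + 1)) ℂ :=
  (-(1 / 2 : ℂ)) • (∑ x, ∑ y, if r x y then spinDot n x y else 0) -
    (h : ℂ) • ∑ x, siteOp x (spinMat n 2)

/-- The sites of a cubic box of side `L`. -/
abbrev Box (L : ℕ) : Type := Fin 3 → Fin L

/-- Nearest neighbours: `ℓ¹`-distance one. -/
def nearest (L : ℕ) (x y : Box L) : Prop := ∑ j, |((x j).val : ℤ) - ((y j).val : ℤ)| = 1

instance (L : ℕ) : DecidableRel (nearest L) := fun _ _ => decEq _ _

/-- The pressure in the box with `(2N+1)^3` sites (a translate of `{-N,…,N}^3`), spin `n / 2`. -/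
noncomputable def pressure (n N : ℕ) (β h : ℝ) : ℝ :=
  Real.log (NormedSpace.exp ((-β : ℂ) • hamiltonian n (nearest (2 * N + 1)) h)).trace.re /
    (β * ((2 * N + 1) ^ 3 : ℕ))

/-- `ζ(3/2) / (8 π^{3/2} S^{3/2})` with `S = n / 2`. -/
noncomputable def blochConstant (n : ℕ) : ℝ :=
  (∑' j : ℕ, 1 / ((j : ℝ) + 1) ^ (3 / 2 : ℝ)) /
    (8 * Real.pi ^ (3 / 2 : ℝ) * ((n : ℝ) / 2) ^ (3 / 2 : ℝ))

end Vale.Agent.P361
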