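import Vale.Agent.P361.Limit

/-!
# Plane waves on a box of odd side
-/

open scoped BigOperators
open MeasureTheory

set_option linter.unusedSectionVars false

namespace Vale.Agent.P361

/-- momenta `2π (k - N) / (2N+1)` -/
noncomputable def momentum (N : ℕ) (k : Fin (2 * N + 1)) : ℝ :=
  2 * Real.pi * ((k.val : ℝ) - N) / (2 * N + 1)

/-- plane wave -/
noncomputable def wave (N : ℕ) (k x : Box (2 * N + 1)) : ℂ :=
  ∏ j, ((Real.sqrt (2 * N + 1))⁻¹ : ℝ) * Complex.exp ((momentum N (k j) * ((x j).val : ℝ) : ℝ) * Complex.I)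

/-- magnon energy upper bound -/
noncomputable def disp (N : ℕ) (k : Box (2 * N + 1)) : ℝ := ∑ j, momentum N (k j) ^ 2

theorem wave_norm (N : ℕ) (k x : Box (2 * N + 1)) :
    Complex.normSq (wave N k x) = 1 / (Fintype.card (Box (2 * N + 1)) : ℝ) := by
  rw [wave, map_prod]
  have h0 : (0 : ℝ) ≤ 2 * N + 1 := by positivity
  have per : ∀ t : ℝ, Complex.normSq (((Real.sqrt (2 * N + 1))⁻¹ : ℝ) * Complex.exp ((t : ℂ) * Complex.I)) =
      (2 * (N : ℝ) + 1)⁻¹ := fun t => by
    rw [Complex.normSq_mul, Complex.normSq_ofReal, Complex.normSq_eq_norm_sq,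
      Complex.norm_exp_ofReal_mul_I, one_pow, mul_one, ← mul_inv, Real.mul_self_sqrt h0]
  rw [Finset.prod_congr rfl fun j _ => per _]
  simp

theorem geom_zero (N : ℕ) {a b : Fin (2 * N + 1)} (hab : a ≠ b) :
    ∑ k : Fin (2 * N + 1), Complex.exp ((momentum N k * ((b.val : ℝ) - a.val) : ℝ) * Complex.I) = 0 := by
  set z : ℂ := Complex.exp (2 * Real.pi * Complex.I * ((((b.val : ℤ) - a.val : ℤ) : ℂ) / (2 * N + 1 : ℕ)))
  have hne : (((2 * N + 1 : ℕ)) : ℂ) ≠ 0 := by exact_mod_cast (2 * N).succ_ne_zero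
  have hzL : z ^ (2 * N + 1) = 1 := by
    rw [← Complex.exp_nat_mul, Complex.exp_eq_one_iff]
    exact ⟨(b.val : ℤ) - a.val, by field_simp⟩
  have hz1 : z ≠ 1 := by
    intro h
    obtain ⟨i, hi⟩ := Complex.exp_eq_one_iff.mp h
    have h2 : (2 : ℂ) * Real.pi * Complex.I ≠ 0 := Complex.two_pi_I_ne_zero
    rw [mul_comm (i : ℂ), mul_right_inj' h2, div_eq_iff hne] at hi
    have h3 : (b.val : ℤ) - a.val = i * ((2 * N + 1 : ℕ) : ℤ) := by exact_mod_cast hi
    have := a.isLt; have := b.isLt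
    rcases lt_trichotomy i 0 with h4 | h4 | h4
    · have := mul_le_mul_of_nonneg_right (show i ≤ -1 by omega) (Int.natCast_nonneg (2 * N + 1))
      push_cast at this h3
      omega
    · subst h4; exact hab (Fin.ext (by omega))
    · have := mul_le_mul_of_nonneg_right (show 1 ≤ i by omega) (Int.natCast_nonneg (2 * N + 1))
      push_cast at this h3
      omega
  have e : ∀ k : Fin (2 * N + 1), Complex.exp ((momentum N k * ((b.val : ℝ) - a.val) : ℝ) * Complex.I) =
      z ^ k.val * Complex.exp (-(2 * Real.pi * (N : ℝ) * ((b.val : ℝ) - a.val) / (2 * N + 1) : ℝ) * Complex.I) := by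
    intro k
    rw [← Complex.exp_nat_mul, ← Complex.exp_add, momentum]
    congr 1
    push_cast
    field_simp
    ring
  rw [Finset.sum_congr rfl fun k _ => e k, ← Finset.sum_mul,
    Fin.sum_univ_eq_sum_range (fun i => z ^ i), geom_sum_eq hz1, hzL, sub_self, zero_div, zero_mul]

theorem wave_complete (N : ℕ) (x y : Box (2 * N + 1)) :
    ∑ k, star (wave N k x) * wave N k y = if x = y then 1 else 0 := by
  have h0 : (0 : ℝ) ≤ 2 * N + 1 := by positivity
  have e : ∀ k, star (wave N k x) * wave N k y = ∏ j, ((2 * N + 1 : ℝ)⁻¹ : ℝ) *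
      Complex.exp ((momentum N (k j) * (((y j).val : ℝ) - (x j).val) : ℝ) * Complex.I) := by
    intro k
    rw [wave, wave, Complex.star_def, map_prod, ← Finset.prod_mul_distrib]
    refine Finset.prod_congr rfl fun j _ => ?_
    rw [map_mul, ← Complex.exp_conj, map_mul, Complex.conj_ofReal, Complex.conj_ofReal, Complex.conj_I,
      mul_mul_mul_comm, ← Complex.exp_add, ← Complex.ofReal_mul, ← mul_inv,
      Real.mul_self_sqrt h0]
    congr 2
    push_cast; ring
  rw [Finset.sum_congr rfl fun k _ => e k, ← Fintype.prod_sum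
    (f := fun j v => (((2 * N + 1 : ℝ)⁻¹ : ℝ) : ℂ) *
      Complex.exp ((momentum N v * (((y j).val : ℝ) - (x j).val) : ℝ) * Complex.I))]
  rcases eq_or_ne x y with rfl | hxy
  · rw [if_pos rfl]
    refine Finset.prod_eq_one fun j _ => ?_
    have hne : ((2 * N + 1 : ℕ) : ℂ) ≠ 0 := by exact_mod_cast (2 * N).succ_ne_zero
    simp only [sub_self, mul_zero, Complex.ofReal_zero, zero_mul, Complex.exp_zero, mul_one,
      Finset.sum_const, Finset.card_univ, Fintype.card_fin, nsmul_eq_mul, Complex.ofReal_inv]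
    push_cast at hne ⊢
    exact mul_inv_cancel₀ hne
  · rw [if_neg hxy]
    obtain ⟨j, hj⟩ := Function.ne_iff.mp hxy
    refine Finset.prod_eq_zero (Finset.mem_univ j) ?_
    rw [← Finset.mul_sum, geom_zero N hj, mul_zero]

theorem nearest_cases {L : ℕ} {x y : Box L} (hxy : nearest L x y) :
    ∃ j, (∀ i, i ≠ j → x i = y i) ∧ ((x j).val + 1 = (y j).val ∨ (y j).val + 1 = (x j).val) := by
  have h : ∑ i, |((x i).val : ℤ) - ((y i).val : ℤ)| = 1 := hxy
  obtain ⟨j, -, hj⟩ := Finset.exists_ne_zero_of_sum_ne_zero (by rw [h]; exact one_ne_zero)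
  rw [← Finset.add_sum_erase _ _ (Finset.mem_univ j)] at h
  have hj1 : 0 < |((x j).val : ℤ) - ((y j).val : ℤ)| := lt_of_le_of_ne (abs_nonneg _) (Ne.symm hj)
  have hr : 0 ≤ ∑ i ∈ Finset.univ.erase j, |((x i).val : ℤ) - ((y i).val : ℤ)| :=
    Finset.sum_nonneg fun i _ => abs_nonneg _
  have hz : ∑ i ∈ Finset.univ.erase j, |((x i).val : ℤ) - ((y i).val : ℤ)| = 0 := by omega
  refine ⟨j, fun i hi => Fin.ext ?_, ?_⟩
  · have := (Finset.sum_eq_zero_iff_of_nonneg fun i _ => abs_nonneg _).mp hz i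
      (Finset.mem_erase.mpr ⟨hi, Finset.mem_univ i⟩)
    rw [abs_eq_zero, sub_eq_zero] at this; exact_mod_cast this
  · have h1 : |((x j).val : ℤ) - ((y j).val : ℤ)| = 1 := by omega
    rcases (abs_eq (zero_le_one (α := ℤ))).mp h1 with h2 | h2 <;> omega

theorem normSq_exp_sub (a b : ℝ) :
    Complex.normSq (Complex.exp ((a : ℂ) * Complex.I) - Complex.exp ((b : ℂ) * Complex.I)) ≤ (a - b) ^ 2 := by
  have e : Complex.exp ((a : ℂ) * Complex.I) - Complex.exp ((b : ℂ) * Complex.I) =
      Complex.exp ((b : ℂ) * Complex.I) * (Complex.exp (Complex.I * ((a - b : ℝ) : ℂ)) - 1) := by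
    rw [mul_sub, mul_one, ← Complex.exp_add]; congr 1; push_cast; ring_nf
  rw [e, Complex.normSq_mul, Complex.normSq_eq_norm_sq, Complex.norm_exp_ofReal_mul_I, one_pow, one_mul,
    Complex.normSq_eq_norm_sq, ← sq_abs (a - b), ← Real.norm_eq_abs]
  exact pow_le_pow_left₀ (norm_nonneg _) Real.norm_exp_I_mul_ofReal_sub_one_le 2

theorem wave_lap (N : ℕ) (k x : Box (2 * N + 1)) :
    ∑ y, (if nearest (2 * N + 1) x y then Complex.normSq (wave N k x - wave N k y) else 0) ≤
      2 / (Fintype.card (Box (2 * N + 1)) : ℝ) * disp N k := by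
  set c := 1 / (Fintype.card (Box (2 * N + 1)) : ℝ) with hc
  have hc0 : 0 ≤ c := by positivity
  set T : Fin 3 → Finset (Box (2 * N + 1)) := fun j => Finset.univ.filter fun y =>
    (∀ i, i ≠ j → x i = y i) ∧ ((x j).val + 1 = (y j).val ∨ (y j).val + 1 = (x j).val)
  have hterm : ∀ j, ∀ y ∈ T j, Complex.normSq (wave N k x - wave N k y) ≤ c * momentum N (k j) ^ 2 := by
    intro j y hy
    simp only [T, Finset.mem_filter, Finset.mem_univ, true_and] at hy
    set f : Fin 3 → Fin (2 * N + 1) → ℂ := fun i v =>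
      ((Real.sqrt (2 * N + 1))⁻¹ : ℝ) * Complex.exp ((momentum N (k i) * (v.val : ℝ) : ℝ) * Complex.I)
    have hprod : ∀ z : Box (2 * N + 1), wave N k z = (∏ i ∈ Finset.univ.erase j, f i (z i)) * f j (z j) :=
      fun z => (Finset.prod_erase_mul _ _ (Finset.mem_univ j)).symm
    have he : ∏ i ∈ Finset.univ.erase j, f i (y i) = ∏ i ∈ Finset.univ.erase j, f i (x i) :=
      Finset.prod_congr rfl fun i hi => by rw [hy.1 i (Finset.ne_of_mem_erase hi)]
    rw [hprod x, hprod y, he, ← mul_sub, Complex.normSq_mul]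
    have hd : Complex.normSq (f j (x j) - f j (y j)) ≤
        Complex.normSq (f j (x j)) * momentum N (k j) ^ 2 := by
      simp only [f, ← mul_sub, Complex.normSq_mul]
      rw [Complex.normSq_eq_norm_sq (Complex.exp _), Complex.norm_exp_ofReal_mul_I, one_pow, mul_one]
      refine mul_le_mul_of_nonneg_left ((normSq_exp_sub _ _).trans (le_of_eq ?_)) (Complex.normSq_nonneg _)
      rw [← mul_sub, mul_pow]
      rcases hy.2 with h | h
      · rw [← h]; push_cast; ring
      · rw [← h]; push_cast; ring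
    refine (mul_le_mul_of_nonneg_left hd (Complex.normSq_nonneg _)).trans (le_of_eq ?_)
    rw [← mul_assoc, ← Complex.normSq_mul, ← hprod, wave_norm]
  have hcard : ∀ j, (T j).card ≤ 2 := fun j => by
    refine (Finset.card_le_card_of_injOn (fun y : Box (2 * N + 1) => ((y j).val)) (t := {(x j).val + 1, (x j).val - 1})
      ?_ ?_).trans Finset.card_le_two
    · intro y hy
      simp only [T, Finset.coe_filter, Finset.mem_univ, true_and, Set.mem_ofPred_eq] at hy
      simp only [Finset.coe_insert, Finset.coe_singleton, Set.mem_insert_iff, Set.mem_singleton_iff]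
      omega
    · intro y hy z hz e
      simp only [T, Finset.coe_filter, Finset.mem_univ, true_and, Set.mem_ofPred_eq] at hy hz
      funext i
      by_cases hi : i = j
      · subst hi; exact Fin.ext e
      · rw [← hy.1 i hi, ← hz.1 i hi]
  calc ∑ y, (if nearest (2 * N + 1) x y then Complex.normSq (wave N k x - wave N k y) else 0)
      ≤ ∑ y, ∑ j, (if y ∈ T j then Complex.normSq (wave N k x - wave N k y) else 0) := by
        refine Finset.sum_le_sum fun y _ => ?_
        have hnn : ∀ i : Fin 3, 0 ≤ (if y ∈ T i then Complex.normSq (wave N k x - wave N k y) else 0) :=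
          fun i => by split_ifs <;> simp [Complex.normSq_nonneg]
        split_ifs with hn
        · obtain ⟨j, hj⟩ := nearest_cases hn
          refine le_trans ?_ (Finset.single_le_sum (fun i _ => hnn i) (Finset.mem_univ j))
          rw [if_pos (by simp [T]; exact hj)]
        · exact Finset.sum_nonneg fun i _ => hnn i
    _ = ∑ j, ∑ y ∈ T j, Complex.normSq (wave N k x - wave N k y) := by
        rw [Finset.sum_comm]; simp [Finset.sum_ite_mem]
    _ ≤ ∑ j, (2 : ℝ) * (c * momentum N (k j) ^ 2) := by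
        refine Finset.sum_le_sum fun j _ => (Finset.sum_le_card_nsmul _ _ _ (hterm j)).trans ?_
        rw [nsmul_eq_mul]
        exact mul_le_mul_of_nonneg_right (by exact_mod_cast hcard j) (mul_nonneg hc0 (sq_nonneg _))
    _ = _ := by rw [disp, hc, Finset.mul_sum]; exact Finset.sum_congr rfl fun j _ => by ring

/-- `(1/π) ∫₀^π e^{-a t²}` -/
noncomputable def gauss (a : ℝ) : ℝ := Real.pi⁻¹ * ∫ t in (0:ℝ)..Real.pi, Real.exp (-a * t ^ 2)

theorem gauss_nonneg (a : ℝ) : 0 ≤ gauss a :=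
  mul_nonneg (inv_nonneg.mpr Real.pi_pos.le)
    (intervalIntegral.integral_nonneg Real.pi_pos.le fun t _ => (Real.exp_pos _).le)

theorem momentum_sum_ge (N : ℕ) {a : ℝ} (ha : 0 ≤ a) :
    gauss a - 1 / (2 * (N : ℝ) + 1) ≤
      (∑ k : Fin (2 * N + 1), Real.exp (-a * momentum N k ^ 2)) / (2 * (N : ℝ) + 1) := by
  set L : ℝ := 2 * (N : ℝ) + 1 with hLd
  have hL : 0 < L := by positivity
  set b : ℝ := 2 * Real.pi / L with hb
  have hb0 : 0 < b := by positivity
  set u : ℝ → ℝ := fun s => Real.exp (-a * (b * s) ^ 2) with hu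
  have hsplit : ∑ k : Fin (2 * N + 1), Real.exp (-a * momentum N k ^ 2) =
      2 * ∑ i ∈ Finset.range (N + 1), u i - 1 := by
    have e : ∀ k : Fin (2 * N + 1), Real.exp (-a * momentum N k ^ 2) = u ((k.val : ℝ) - N) := fun k => by
      simp only [hu, momentum, hb, hLd]; congr 1; ring
    rw [Finset.sum_congr rfl fun k _ => e k,
      Fin.sum_univ_eq_sum_range (fun i : ℕ => u ((i : ℝ) - N)),
      show 2 * N + 1 = N + (N + 1) by ring, Finset.sum_range_add]
    have h2 : ∑ i ∈ Finset.range N, u ((i : ℝ) - N) = ∑ i ∈ Finset.range N, u ((i + 1 : ℕ) : ℝ) := by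
      rw [← Finset.sum_range_reflect (fun i : ℕ => u ((i + 1 : ℕ) : ℝ))]
      refine Finset.sum_congr rfl fun i hi => ?_
      have hi' : i < N := Finset.mem_range.mp hi
      have : N - 1 - i + 1 = N - i := by omega
      simp only [this, Nat.cast_sub hi'.le, hu]
      congr 1; ring
    rw [h2, Finset.sum_range_succ' (fun i : ℕ => u (i : ℝ)) N]
    have h3 : ∑ i ∈ Finset.range (N + 1), u (((N + i : ℕ) : ℝ) - N) = ∑ i ∈ Finset.range (N + 1), u (i : ℝ) :=
      Finset.sum_congr rfl fun i _ => by push_cast; ring_nf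
    rw [h3, Finset.sum_range_succ' (fun i : ℕ => u (i : ℝ)) N]
    have h0 : u ((0 : ℕ) : ℝ) = 1 := by simp [hu]
    rw [h0]; ring
  have hanti : AntitoneOn u (Set.Icc (0:ℝ) (0 + (N + 1 : ℕ))) := by
    intro s hs t _ hst
    simp only [hu]
    refine Real.exp_le_exp.mpr ?_
    have h1 : (b * s) ^ 2 ≤ (b * t) ^ 2 :=
      pow_le_pow_left₀ (mul_nonneg hb0.le hs.1) (mul_le_mul_of_nonneg_left hst hb0.le) 2
    have := mul_le_mul_of_nonneg_left h1 ha
    linarith
  have hint := hanti.integral_le_sum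
  simp only [zero_add] at hint
  have hsub : ∫ s in (0:ℝ)..((N + 1 : ℕ) : ℝ), u s =
      b⁻¹ * ∫ t in (0:ℝ)..(b * ((N + 1 : ℕ) : ℝ)), Real.exp (-a * t ^ 2) := by
    rw [hu, intervalIntegral.integral_comp_mul_left (fun t => Real.exp (-a * t ^ 2)) hb0.ne', mul_zero,
      smul_eq_mul]
  have hpi : Real.pi ≤ b * ((N + 1 : ℕ) : ℝ) := by
    rw [hb, div_mul_eq_mul_div, le_div_iff₀ hL, hLd]; push_cast
    nlinarith [Real.pi_pos]
  have hmono : ∫ t in (0:ℝ)..Real.pi, Real.exp (-a * t ^ 2) ≤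
      ∫ t in (0:ℝ)..(b * ((N + 1 : ℕ) : ℝ)), Real.exp (-a * t ^ 2) :=
    intervalIntegral.integral_mono_interval le_rfl Real.pi_pos.le hpi
      (Filter.Eventually.of_forall fun t => (Real.exp_pos _).le)
      (Continuous.intervalIntegrable (by fun_prop) _ _)
  rw [hsub] at hint
  have h4 := (mul_le_mul_of_nonneg_left hmono (inv_nonneg.mpr hb0.le)).trans hint
  rw [hsplit, le_div_iff₀ hL, sub_mul, one_div, inv_mul_cancel₀ hL.ne']
  have h5 : gauss a * L = 2 * (b⁻¹ * ∫ t in (0:ℝ)..Real.pi, Real.exp (-a * t ^ 2)) := by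
    rw [gauss, hb, inv_div]; field_simp
  rw [h5]; linarith

end Vale.Agent.P361
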