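import Mathlib

/-!
# Gibbs states: Peierls–Bogoliubov and a Bose–Jensen form of the Bogoliubov inequality
-/

open scoped BigOperators ComplexOrder
open Matrix

set_option linter.unusedSectionVars false

namespace Vale.Agent.P361

variable {κ : Type*} [Fintype κ] [DecidableEq κ]

/-- partition function -/
noncomputable def gz (β : ℝ) (K : Matrix κ κ ℂ) : ℝ :=
  (NormedSpace.exp ((-β : ℂ) • K)).trace.re

/-- Gibbs expectation (real part) -/
noncomputable def gexp (β : ℝ) (K B : Matrix κ κ ℂ) : ℝ :=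
  (NormedSpace.exp ((-β : ℂ) • K) * B).trace.re / gz β K

/-- an operator in an eigenbasis of `K` -/
noncomputable def rot {K : Matrix κ κ ℂ} (hK : K.IsHermitian) (B : Matrix κ κ ℂ) : Matrix κ κ ℂ :=
  star (hK.eigenvectorUnitary : Matrix κ κ ℂ) * B * (hK.eigenvectorUnitary : Matrix κ κ ℂ)

/-- Gibbs weight of an eigenvalue -/
noncomputable def gw {K : Matrix κ κ ℂ} (hK : K.IsHermitian) (β : ℝ) (i : κ) : ℝ :=
  Real.exp (-(β * hK.eigenvalues i)) / gz β K

section
variable {K : Matrix κ κ ℂ} (hK : K.IsHermitian) (β : ℝ)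
include hK

theorem unit_mul : (hK.eigenvectorUnitary : Matrix κ κ ℂ) *
    star (hK.eigenvectorUnitary : Matrix κ κ ℂ) = 1 := Unitary.coe_mul_star_self _

theorem unit_mul' : star (hK.eigenvectorUnitary : Matrix κ κ ℂ) *
    (hK.eigenvectorUnitary : Matrix κ κ ℂ) = 1 := Unitary.coe_star_mul_self _

theorem exp_eq : NormedSpace.exp ((-β : ℂ) • K) =
    (hK.eigenvectorUnitary : Matrix κ κ ℂ) *
      diagonal (fun i => ((Real.exp (-(β * hK.eigenvalues i)) : ℝ) : ℂ)) *
      star (hK.eigenvectorUnitary : Matrix κ κ ℂ) := by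
  have hu : IsUnit (hK.eigenvectorUnitary : Matrix κ κ ℂ) := IsUnit.of_mul_eq_one _ (unit_mul hK)
  have hinv : (hK.eigenvectorUnitary : Matrix κ κ ℂ)⁻¹ =
      star (hK.eigenvectorUnitary : Matrix κ κ ℂ) := Matrix.inv_eq_right_inv (unit_mul hK)
  conv_lhs =>
    rw [hK.spectral_theorem, Unitary.conjStarAlgAut_apply, ← smul_mul_assoc, ← mul_smul_comm,
      ← diagonal_smul, ← hinv, Matrix.exp_conj _ _ hu, Matrix.exp_diagonal, hinv]
  congr 2
  congr 1
  funext i
  rw [Pi.coe_exp]
  simp [← congrFun Complex.exp_eq_exp_ℂ, Complex.ofReal_exp]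

theorem trace_exp_mul (B : Matrix κ κ ℂ) : (NormedSpace.exp ((-β : ℂ) • K) * B).trace =
    ∑ i, ((Real.exp (-(β * hK.eigenvalues i)) : ℝ) : ℂ) * rot hK B i i := by
  rw [exp_eq hK, Matrix.mul_assoc, Matrix.mul_assoc, Matrix.trace_mul_comm, Matrix.mul_assoc,
    Matrix.trace]
  refine Finset.sum_congr rfl fun i _ => ?_
  rw [diag_apply, diagonal_mul]; rfl

theorem gz_eq : gz β K = ∑ i, Real.exp (-(β * hK.eigenvalues i)) := by
  have h := trace_exp_mul hK β (1 : Matrix κ κ ℂ)
  simp only [Matrix.mul_one, rot, unit_mul', one_apply_eq, mul_one] at h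
  rw [gz, h, Complex.re_sum]
  exact Finset.sum_congr rfl fun i _ => Complex.ofReal_re _

theorem gz_pos [Nonempty κ] : 0 < gz β K := by
  rw [gz_eq hK]
  exact Finset.sum_pos (fun i _ => Real.exp_pos _) Finset.univ_nonempty

theorem gw_sum [Nonempty κ] : ∑ i, gw hK β i = 1 := by
  simp only [gw, ← Finset.sum_div, ← gz_eq hK]
  exact div_self (gz_pos hK β).ne'

theorem gw_nonneg [Nonempty κ] (i : κ) : 0 ≤ gw hK β i :=
  div_nonneg (Real.exp_pos _).le (gz_pos hK β).le

theorem gexp_eq (B : Matrix κ κ ℂ) : gexp β K B = ∑ i, gw hK β i * (rot hK B i i).re := by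
  rw [gexp, trace_exp_mul hK, Complex.re_sum, Finset.sum_div]
  simp only [gw, Complex.re_ofReal_mul]
  exact Finset.sum_congr rfl fun i _ => by ring

theorem rot_mul (A B : Matrix κ κ ℂ) : rot hK (A * B) = rot hK A * rot hK B := by
  simp only [rot, Matrix.mul_assoc]
  rw [← Matrix.mul_assoc (hK.eigenvectorUnitary : Matrix κ κ ℂ)
    (star (hK.eigenvectorUnitary : Matrix κ κ ℂ)), unit_mul, Matrix.one_mul]

theorem rot_sub (A B : Matrix κ κ ℂ) : rot hK (A - B) = rot hK A - rot hK B := by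
  simp [rot, Matrix.mul_sub, Matrix.sub_mul]

theorem rot_conjTranspose (A : Matrix κ κ ℂ) : rot hK Aᴴ = (rot hK A)ᴴ := by
  simp [rot, star_eq_conjTranspose, Matrix.conjTranspose_mul, Matrix.mul_assoc]

theorem rot_self : rot hK K = diagonal (fun i => ((hK.eigenvalues i : ℝ) : ℂ)) := by
  conv_lhs => rw [rot]; enter [1, 2]; rw [hK.spectral_theorem, Unitary.conjStarAlgAut_apply]
  simp only [Matrix.mul_assoc, unit_mul', Matrix.mul_one]
  rw [← Matrix.mul_assoc, unit_mul', Matrix.one_mul]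
  rfl

end

section linear
variable (β : ℝ) (K : Matrix κ κ ℂ)

theorem gexp_add (A B : Matrix κ κ ℂ) : gexp β K (A + B) = gexp β K A + gexp β K B := by
  simp [gexp, Matrix.mul_add, add_div]

theorem gexp_sub (A B : Matrix κ κ ℂ) : gexp β K (A - B) = gexp β K A - gexp β K B := by
  simp [gexp, Matrix.mul_sub, sub_div]

theorem gexp_zero : gexp β K 0 = 0 := by simp [gexp]

theorem gexp_sum {α : Type*} (s : Finset α) (A : α → Matrix κ κ ℂ) :
    gexp β K (∑ a ∈ s, A a) = ∑ a ∈ s, gexp β K (A a) := by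
  simp [gexp, Matrix.mul_sum, Matrix.trace_sum, Complex.re_sum, Finset.sum_div]

theorem gexp_smul (c : ℝ) (A : Matrix κ κ ℂ) : gexp β K ((c : ℂ) • A) = c * gexp β K A := by
  simp [gexp, mul_div_assoc]

theorem gexp_neg (A : Matrix κ κ ℂ) : gexp β K (-A) = -gexp β K A := by
  simp [gexp, Matrix.trace_neg, neg_div]

end linear

variable {K : Matrix κ κ ℂ} (hK : K.IsHermitian) {β : ℝ} [Nonempty κ]
include hK

theorem gexp_one : gexp β K 1 = 1 := by
  rw [gexp, Matrix.mul_one]; exact div_self (gz_pos hK β).ne'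

theorem gexp_conjTranspose (B : Matrix κ κ ℂ) : gexp β K Bᴴ = gexp β K B := by
  rw [gexp_eq hK, gexp_eq hK]
  simp [rot_conjTranspose]

theorem gexp_star_mul_self_nonneg (B : Matrix κ κ ℂ) : 0 ≤ gexp β K (Bᴴ * B) := by
  rw [gexp_eq hK]
  refine Finset.sum_nonneg fun i _ => mul_nonneg (gw_nonneg hK β i) ?_
  rw [rot_mul, rot_conjTranspose, Matrix.mul_apply, Complex.re_sum]
  refine Finset.sum_nonneg fun j _ => ?_
  simp [Complex.mul_re]
  nlinarith [mul_self_nonneg (rot hK B j i).re, mul_self_nonneg (rot hK B j i).im]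

theorem gexp_diagonal_nonneg {d : κ → ℝ} (hd : ∀ i, 0 ≤ d i) :
    0 ≤ gexp β K (diagonal fun i => ((d i : ℝ) : ℂ)) := by
  have h : (diagonal fun i => ((d i : ℝ) : ℂ)) =
      (diagonal fun i => ((Real.sqrt (d i) : ℝ) : ℂ))ᴴ * diagonal fun i => ((Real.sqrt (d i) : ℝ) : ℂ) := by
    simp [← Complex.ofReal_mul, Real.mul_self_sqrt (hd _)]
  rw [h]; exact gexp_star_mul_self_nonneg hK _

/-- **Peierls–Bogoliubov inequality.** -/
theorem log_gz_ge {K₂ : Matrix κ κ ℂ} (hK₂ : K₂.IsHermitian) :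
    Real.log (gz β K) - β * gexp β K (K₂ - K) ≤ Real.log (gz β K₂) := by
  set U := (hK.eigenvectorUnitary : Matrix κ κ ℂ)
  set U₂ := (hK₂.eigenvectorUnitary : Matrix κ κ ℂ)
  set W := star U * U₂ with hW
  set d : κ → ℝ := fun i => (rot hK K₂ i i).re with hd
  have hWW : W * star W = 1 := by
    rw [hW, star_mul, star_star, Matrix.mul_assoc, ← Matrix.mul_assoc U₂, unit_mul hK₂,
      Matrix.one_mul, unit_mul' hK]
  have hWW' : star W * W = 1 := by
    rw [hW, star_mul, star_star, Matrix.mul_assoc, ← Matrix.mul_assoc U, unit_mul hK,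
      Matrix.one_mul, unit_mul' hK₂]
  have hrow : ∀ i, ∑ j, Complex.normSq (W i j) = 1 := fun i => by
    have h1 : ∑ j, W i j * star (W i j) = 1 := by
      simpa [Matrix.mul_apply, star_eq_conjTranspose] using congrFun (congrFun hWW i) i
    simpa [Complex.re_sum, Complex.mul_conj] using congrArg Complex.re h1
  have hcol : ∀ j, ∑ i, Complex.normSq (W i j) = 1 := fun j => by
    have h1 : ∑ i, star (W i j) * W i j = 1 := by
      simpa [Matrix.mul_apply, star_eq_conjTranspose] using congrFun (congrFun hWW' j) j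
    simpa [Complex.re_sum, mul_comm, Complex.mul_conj] using congrArg Complex.re h1
  have hdW : ∀ i, d i = ∑ j, Complex.normSq (W i j) * hK₂.eigenvalues j := fun i => by
    have : rot hK K₂ = W * diagonal (fun j => ((hK₂.eigenvalues j : ℝ) : ℂ)) * star W := by
      rw [← rot_self hK₂, hW, star_mul, star_star]
      simp only [rot, Matrix.mul_assoc]
      rw [← Matrix.mul_assoc (hK₂.eigenvectorUnitary : Matrix κ κ ℂ)
        (star (hK₂.eigenvectorUnitary : Matrix κ κ ℂ)), unit_mul hK₂, Matrix.one_mul,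
        ← Matrix.mul_assoc (hK₂.eigenvectorUnitary : Matrix κ κ ℂ)
        (star (hK₂.eigenvectorUnitary : Matrix κ κ ℂ)), unit_mul hK₂, Matrix.one_mul]
    simp only [hd, this, Matrix.mul_apply, Complex.re_sum]
    simp [diagonal, star_eq_conjTranspose, Complex.normSq_apply, Complex.mul_re]
    refine Finset.sum_congr rfl fun j _ => ?_
    ring
  have step : ∑ i, Real.exp (-(β * d i)) ≤ gz β K₂ := by
    rw [gz_eq hK₂]
    calc ∑ i, Real.exp (-(β * d i))
        ≤ ∑ i, ∑ j, Complex.normSq (W i j) * Real.exp (-(β * hK₂.eigenvalues j)) := by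
          refine Finset.sum_le_sum fun i _ => ?_
          have h := convexOn_exp.map_sum_le (t := Finset.univ)
            (w := fun j => Complex.normSq (W i j)) (p := fun j => -(β * hK₂.eigenvalues j))
            (fun j _ => Complex.normSq_nonneg _) (hrow i) (fun j _ => Set.mem_univ _)
          simp only [smul_eq_mul] at h
          refine le_of_eq_of_le ?_ h
          rw [hdW]; congr 1
          simp only [Finset.mul_sum, ← Finset.sum_neg_distrib]
          exact Finset.sum_congr rfl fun j _ => by ring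
      _ = ∑ j, (∑ i, Complex.normSq (W i j)) * Real.exp (-(β * hK₂.eigenvalues j)) := by
          rw [Finset.sum_comm]; simp [Finset.sum_mul]
      _ = _ := by simp [hcol]
  have hz := gz_pos hK β
  have hz₂ := gz_pos hK₂ β
  rw [sub_eq_add_neg, Real.le_log_iff_exp_le hz₂, Real.exp_add, Real.exp_log hz]
  refine le_trans ?_ step
  have hexp : gexp β K (K₂ - K) = ∑ i, gw hK β i * (d i - hK.eigenvalues i) := by
    rw [gexp_eq hK]; simp [rot_sub, rot_self, hd]
  have h := convexOn_exp.map_sum_le (t := Finset.univ) (w := gw hK β)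
    (p := fun i => -(β * (d i - hK.eigenvalues i)))
    (fun j _ => gw_nonneg hK β j) (gw_sum hK β) (fun j _ => Set.mem_univ _)
  simp only [smul_eq_mul] at h
  calc gz β K * Real.exp (-(β * gexp β K (K₂ - K)))
      ≤ gz β K * ∑ i, gw hK β i * Real.exp (-(β * (d i - hK.eigenvalues i))) := by
        refine mul_le_mul_of_nonneg_left (le_of_eq_of_le ?_ h) hz.le
        rw [hexp]; congr 1
        simp only [Finset.mul_sum, ← Finset.sum_neg_distrib]
        exact Finset.sum_congr rfl fun j _ => by ring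
    _ = ∑ i, Real.exp (-(β * d i)) := by
        rw [Finset.mul_sum]
        refine Finset.sum_congr rfl fun i _ => ?_
        rw [gw, ← mul_assoc, mul_div_cancel₀ _ hz.ne', ← Real.exp_add]
        ring_nf

omit hK in
theorem bose_pointwise (x x₀ : ℝ) (hx₀ : 0 < x₀) :
    (Real.exp x - 1) * ((Real.exp x₀ - 1) - Real.exp x₀ * (x - x₀)) ≤ (Real.exp x₀ - 1) ^ 2 := by
  set q := Real.exp x₀ with hq
  have hq1 : 1 < q := Real.one_lt_exp_iff.mpr hx₀
  set u := x - x₀ with hu
  have hx : Real.exp x = q * Real.exp u := by rw [hq, ← Real.exp_add]; congr 1; rw [hu]; ring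
  rcases le_total (Real.exp x) 1 with h | h
  · have : x ≤ 0 := Real.exp_le_one_iff.mp h
    have hbr : 0 ≤ q - 1 - q * u := by
      have := mul_nonpos_of_nonneg_of_nonpos (by linarith : (0:ℝ) ≤ q) (by rw [hu]; linarith : u ≤ 0)
      linarith
    nlinarith
  · rcases le_total (q - 1 - q * u) 0 with h2 | h2
    · nlinarith
    · have hu1 : u < 1 := by nlinarith
      have hp : Real.exp u ≤ 1 / (1 - u) := by
        rw [le_div_iff₀ (by linarith)]
        calc Real.exp u * (1 - u) ≤ Real.exp u * Real.exp (-u) :=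
              mul_le_mul_of_nonneg_left (by linarith [Real.add_one_le_exp (-u)]) (Real.exp_pos u).le
          _ = 1 := by rw [← Real.exp_add, add_neg_cancel, Real.exp_zero]
      have hxle : Real.exp x - 1 ≤ q / (1 - u) - 1 := by
        rw [hx]
        have := mul_le_mul_of_nonneg_left hp (by linarith : (0:ℝ) ≤ q)
        rw [mul_one_div] at this; linarith
      refine (mul_le_mul_of_nonneg_right hxle h2).trans ?_
      rw [div_sub_one (by linarith : (1 - u) ≠ 0), div_mul_eq_mul_div, div_le_iff₀ (by linarith)]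
      nlinarith [mul_nonneg (by linarith : (0:ℝ) ≤ q) (mul_self_nonneg u)]

/-- **Bose–Jensen form of the Bogoliubov inequality.** -/
theorem bose_jensen {ρ : Type*} [Fintype ρ] (A : ρ → Matrix κ κ ℂ) (hβ : 0 < β) {x₀ : ℝ} (hx₀ : 0 < x₀)
    (hb : β * (∑ r, gexp β K ((A r * K - K * A r) * (A r)ᴴ - (A r)ᴴ * (A r * K - K * A r))) ≤
      x₀ * ∑ r, gexp β K (A r * (A r)ᴴ - (A r)ᴴ * A r)) :
    (∑ r, gexp β K (A r * (A r)ᴴ - (A r)ᴴ * A r)) / (Real.exp x₀ - 1) ≤
      ∑ r, gexp β K ((A r)ᴴ * A r) := by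
  set w := gw hK β with hw
  set E := hK.eigenvalues with hE
  set a : κ → κ → ℝ := fun i j => ∑ r, Complex.normSq (rot hK (A r) i j) with ha
  have ha0 : ∀ i j, 0 ≤ a i j := fun i j => Finset.sum_nonneg fun r _ => Complex.normSq_nonneg _
  have hcomm : ∀ (r : ρ) (i j : κ), rot hK (A r * K - K * A r) i j =
      rot hK (A r) i j * ((E j - E i : ℝ) : ℂ) := fun r i j => by
    simp [rot_sub, rot_mul, rot_self, hE, Matrix.mul_diagonal, Matrix.diagonal_mul]
    ring
  have hgen : ∀ (r : ρ) (P : Matrix κ κ ℂ) (f : κ → κ → ℝ),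
      (∀ i j, rot hK P i j = rot hK (A r) i j * ((f i j : ℝ) : ℂ)) →
      gexp β K (P * (A r)ᴴ - (A r)ᴴ * P) =
        ∑ i, ∑ j, (w i - w j) * f i j * Complex.normSq (rot hK (A r) i j) := by
    intro r P f hf
    have h1 : gexp β K (P * (A r)ᴴ) = ∑ i, ∑ j, w i * f i j * Complex.normSq (rot hK (A r) i j) := by
      rw [gexp_eq hK]
      refine Finset.sum_congr rfl fun i _ => ?_
      rw [rot_mul, rot_conjTranspose, Matrix.mul_apply, Complex.re_sum, Finset.mul_sum]
      refine Finset.sum_congr rfl fun j _ => ?_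
      simp [hf, Complex.normSq_apply, Complex.mul_re, hw]
      ring
    have h2 : gexp β K ((A r)ᴴ * P) = ∑ i, ∑ j, w j * f i j * Complex.normSq (rot hK (A r) i j) := by
      rw [gexp_eq hK, Finset.sum_comm]
      refine Finset.sum_congr rfl fun j _ => ?_
      rw [rot_mul, rot_conjTranspose, Matrix.mul_apply, Complex.re_sum, Finset.mul_sum]
      refine Finset.sum_congr rfl fun i _ => ?_
      simp [hf, Complex.normSq_apply, Complex.mul_re, hw]
      ring
    rw [gexp_sub, h1, h2]
    simp [← Finset.sum_sub_distrib, sub_mul]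
  have hc : ∑ r, gexp β K (A r * (A r)ᴴ - (A r)ᴴ * A r) = ∑ i, ∑ j, (w i - w j) * a i j := by
    simp only [fun r => hgen r (A r) (fun _ _ => 1) (fun i j => by simp), mul_one, ha, Finset.mul_sum]
    rw [Finset.sum_comm]
    exact Finset.sum_congr rfl fun i _ => Finset.sum_comm
  have hbb : ∑ r, gexp β K ((A r * K - K * A r) * (A r)ᴴ - (A r)ᴴ * (A r * K - K * A r)) =
      ∑ i, ∑ j, (w i - w j) * (E j - E i) * a i j := by
    simp only [fun r => hgen r (A r * K - K * A r) (fun i j => E j - E i) (hcomm r), ha,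
      Finset.mul_sum]
    rw [Finset.sum_comm]
    exact Finset.sum_congr rfl fun i _ => Finset.sum_comm
  have hd1 : ∀ r, gexp β K ((A r)ᴴ * A r) =
      ∑ i, ∑ j, w j * Complex.normSq (rot hK (A r) i j) := fun r => by
    rw [gexp_eq hK, Finset.sum_comm]
    refine Finset.sum_congr rfl fun j _ => ?_
    rw [rot_mul, rot_conjTranspose, Matrix.mul_apply, Complex.re_sum, Finset.mul_sum]
    refine Finset.sum_congr rfl fun i _ => ?_
    simp [Complex.normSq_apply, Complex.mul_re, hw]
  have hd : ∑ r, gexp β K ((A r)ᴴ * A r) = ∑ i, ∑ j, w j * a i j := by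
    simp only [hd1, ha, Finset.mul_sum]
    rw [Finset.sum_comm]
    exact Finset.sum_congr rfl fun i _ => Finset.sum_comm
  rw [hc, hbb] at hb
  rw [hc, hd]
  set q := Real.exp x₀ with hq
  have hq1 : 0 < q - 1 := by linarith [Real.one_lt_exp_iff.mpr hx₀]
  have hwr : ∀ i j, w i = w j * Real.exp (β * (E j - E i)) := fun i j => by
    simp only [hw, gw, hE, div_mul_eq_mul_div, ← Real.exp_add]
    congr 2; ring
  have key : (q - 1) * ∑ i, ∑ j, (w i - w j) * a i j -
      q * (∑ i, ∑ j, (β * ((w i - w j) * (E j - E i) * a i j) - x₀ * ((w i - w j) * a i j))) ≤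
      (q - 1) ^ 2 * ∑ i, ∑ j, w j * a i j := by
    simp only [Finset.mul_sum, ← Finset.sum_sub_distrib]
    refine Finset.sum_le_sum fun i _ => Finset.sum_le_sum fun j _ => ?_
    have h := mul_le_mul_of_nonneg_left (bose_pointwise (β * (E j - E i)) x₀ hx₀)
      (mul_nonneg (gw_nonneg hK β j) (ha0 i j))
    rw [← hw, ← hq] at h
    rw [hwr i j]
    linarith
  simp only [Finset.sum_sub_distrib, ← Finset.mul_sum] at key
  rw [div_le_iff₀ hq1]
  have hq0 : 0 < q := Real.exp_pos _
  have h5 := mul_le_mul_of_nonneg_left hb hq0.le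
  refine le_of_mul_le_mul_left ?_ hq1
  linarith

end Vale.Agent.P361
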