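import Vale.Agent.P361.Thermo

/-!
# Box decomposition and the thermodynamic limit
-/

open scoped BigOperators
open Matrix Filter Topology

set_option linter.unusedSectionVars false

namespace Vale.Agent.P361

/-- `log Z / |Λ|` in a box -/
noncomputable def boxLz (n : ℕ) (β h : ℝ) (L : ℕ) : ℝ :=
  lz (Box L) n (nearest L) β h / (L : ℝ) ^ 3

theorem nearest_symm (L : ℕ) (x y : Box L) (hxy : nearest L x y) : nearest L y x := by
  unfold nearest at *; rw [← hxy]; exact Finset.sum_congr rfl fun j _ => abs_sub_comm _ _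

theorem nearest_irrefl (L : ℕ) (x : Box L) : ¬nearest L x x := by simp [nearest]

theorem nearest_abs_le {L : ℕ} {x y : Box L} (hxy : nearest L x y) (j : Fin 3) :
    |((x j).val : ℤ) - ((y j).val : ℤ)| ≤ 1 := by
  rw [← show ∑ i, |((x i).val : ℤ) - ((y i).val : ℤ)| = 1 from hxy]
  exact Finset.single_le_sum (f := fun i => |((x i).val : ℤ) - ((y i).val : ℤ)|)
    (fun i _ => abs_nonneg _) (Finset.mem_univ j)

theorem card_nbrs {L : ℕ} (x : Box L) :
    (Finset.univ.filter fun y : Box L => nearest L x y).card ≤ 27 := by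
  refine (Finset.card_le_card (t := Fintype.piFinset fun j =>
    Finset.univ.filter fun v : Fin L => |((x j).val : ℤ) - (v.val : ℤ)| ≤ 1) ?_).trans ?_
  · intro y hy
    simp only [Finset.mem_filter, Finset.mem_univ, true_and, Fintype.mem_piFinset] at hy ⊢
    exact fun j => nearest_abs_le hy j
  · rw [Fintype.card_piFinset]
    calc ∏ j, (Finset.univ.filter fun v : Fin L => |((x j).val : ℤ) - (v.val : ℤ)| ≤ 1).card
        ≤ ∏ _j : Fin 3, 3 := Finset.prod_le_prod' fun j _ => ?_
      _ = 27 := by simp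
    rw [← Finset.card_image_of_injective _ Fin.val_injective]
    refine (Finset.card_le_card (t := Finset.Icc ((x j).val - 1) ((x j).val + 1)) ?_).trans ?_
    · intro v hv
      simp only [Finset.mem_image, Finset.mem_filter, Finset.mem_univ, true_and, abs_le] at hv
      obtain ⟨w, hw, rfl⟩ := hv
      simp only [Finset.mem_Icc]; omega
    · rw [Nat.card_Icc]; omega

theorem card_coord {L : ℕ} (p : Fin L → Prop) [DecidablePred p] (j : Fin 3) :
    (Finset.univ.filter fun x : Box L => p (x j)).card = L ^ 2 * (Finset.univ.filter p).card := by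
  have : (Finset.univ.filter fun x : Box L => p (x j)) =
      Fintype.piFinset fun i => if i = j then Finset.univ.filter p else Finset.univ := by
    ext x
    simp only [Finset.mem_filter, Finset.mem_univ, true_and, Fintype.mem_piFinset]
    refine ⟨fun hx i => ?_, fun hx => by simpa using hx j⟩
    by_cases hij : i = j
    · subst hij; simpa using hx
    · simp [hij]
  rw [this, Fintype.card_piFinset]
  rw [← Finset.mul_prod_erase _ _ (Finset.mem_univ j), if_pos rfl,
    Finset.prod_congr rfl (g := fun _ => L) fun i hi => ?_, Finset.prod_const,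
    Finset.card_erase_of_mem (Finset.mem_univ j)]
  · simp [mul_comm]
  · rw [if_neg (Finset.ne_of_mem_erase hi)]; simp

theorem card_mod_le (L l c : ℕ) :
    (Finset.univ.filter fun v : Fin L => v.val % l = c).card ≤ L / l + 1 := by
  rw [← Finset.card_range (L / l + 1)]
  refine Finset.card_le_card_of_injOn (fun v => v.val / l)
    (fun v _ => Finset.mem_coe.mpr (Finset.mem_range.mpr
      (Nat.lt_succ_of_le (Nat.div_le_div_right v.isLt.le)))) ?_
  intro v hv w hw hvw
  simp only [Finset.coe_filter, Finset.mem_univ, true_and, Set.mem_ofPred_eq] at hv hw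
  refine Fin.ext ?_
  rw [← Nat.div_add_mod v.val l, ← Nat.div_add_mod w.val l]
  simp only at hvw
  rw [hvw, hv, hw]

theorem abs_lz_le (n : ℕ) {β : ℝ} (hβ : 0 ≤ β) (h : ℝ) (L : ℕ) :
    |lz (Box L) n (nearest L) β h| ≤ ((Real.log ((n : ℝ) + 1) + |β * h| * ((n : ℝ) / 2)) +
      27 * (β * ((n : ℝ) / 2 * ((n : ℝ) / 2 + 1)) / 2)) * (L : ℝ) ^ 3 := by
  have h1 := lz_perturb (n := n) (nearest L) (noBond (Box L)) (nearest_symm L) (nearest_irrefl L)
    (fun _ _ hh => hh.elim) (fun _ hh => hh.elim) hβ h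
  have h2 := lz_noBond (V := Box L) (n := n) β h
  have h3 : (Fintype.card (Box L) : ℝ) = (L : ℝ) ^ 3 := by simp
  set P := Finset.univ.filter fun p : Box L × Box L => ¬(nearest L p.1 p.2 ↔ noBond (Box L) p.1 p.2)
  have hP : (P.card : ℝ) ≤ 27 * (L : ℝ) ^ 3 := by
    have : P.card ≤ 27 * Fintype.card (Box L) := by
      refine Finset.card_le_mul_card_image (f := Prod.fst) P 27 (fun x _ => ?_) |>.trans
        (Nat.mul_le_mul_left _ (Finset.card_le_univ _))
      refine le_trans ?_ (card_nbrs x)
      refine Finset.card_le_card_of_injOn Prod.snd ?_ ?_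
      · intro p hp
        simp only [P, Finset.mem_filter, Finset.mem_univ, true_and, noBond, iff_false, not_not,
          Finset.coe_filter, Set.mem_ofPred_eq] at hp ⊢
        obtain ⟨hp1, rfl⟩ := hp
        exact hp1
      · intro p hp p' hp' e
        simp only [Finset.coe_filter, Set.mem_ofPred_eq] at hp hp'
        exact Prod.ext (hp.2.trans hp'.2.symm) e
    rw [← h3]; exact_mod_cast this
  have h4 := mul_le_mul_of_nonneg_left hP
    (show (0 : ℝ) ≤ β * ((n : ℝ) / 2 * ((n : ℝ) / 2 + 1)) / 2 by positivity)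
  rw [h3] at h2
  obtain ⟨a1, a2⟩ := abs_le.mp h1
  obtain ⟨b1, b2⟩ := abs_le.mp h2
  rw [abs_le]; constructor <;> nlinarith

/-- the sites of the `q³` complete sub-boxes of side `l` -/
def inQ (L l : ℕ) (x : Box L) : Prop := ∀ j, (x j).val < L / l * l

instance (L l : ℕ) : DecidablePred (inQ L l) := fun _ => Fintype.decidableForallFintype

/-- decomposition of the covered part -/
def blockEquiv (L l : ℕ) (hl : 0 < l) : {x : Box L // inQ L l x} ≃ (Fin 3 → Fin (L / l)) × Box l where
  toFun x := (fun j => ⟨(x.1 j).val / l, Nat.div_lt_of_lt_mul (by rw [mul_comm]; exact x.2 j)⟩,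
    fun j => ⟨(x.1 j).val % l, Nat.mod_lt _ hl⟩)
  invFun p := ⟨fun j => ⟨(p.1 j).val * l + (p.2 j).val, by
      have h1 := (Nat.mul_le_mul_right l (p.1 j).isLt)
      have h2 := (p.2 j).isLt
      have h3 := Nat.div_mul_le_self L l
      rw [Nat.succ_mul] at h1; omega⟩, fun j => by
      have h1 := (Nat.mul_le_mul_right l (p.1 j).isLt)
      have h2 := (p.2 j).isLt
      rw [Nat.succ_mul] at h1
      show (p.1 j).val * l + (p.2 j).val < L / l * l
      omega⟩
  left_inv x := by
    ext j
    show (x.1 j).val / l * l + (x.1 j).val % l = (x.1 j).val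
    rw [mul_comm]; exact Nat.div_add_mod _ _
  right_inv p := by
    ext j
    · show ((p.1 j).val * l + (p.2 j).val) / l = (p.1 j).val
      rw [mul_comm, Nat.mul_add_div hl, Nat.div_eq_of_lt (p.2 j).isLt, add_zero]
    · show ((p.1 j).val * l + (p.2 j).val) % l = (p.2 j).val
      rw [mul_comm, Nat.mul_add_mod, Nat.mod_eq_of_lt (p.2 j).isLt]

/-- the bonds kept -/
def blockRel (L l : ℕ) (x y : Box L) : Prop :=
  nearest L x y ∧ inQ L l x ∧ inQ L l y ∧ ∀ j, (x j).val / l = (y j).val / l

instance (L l : ℕ) : DecidableRel (blockRel L l) := fun _ _ => instDecidableAnd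

theorem blockRel_symm {L l : ℕ} (x y : Box L) (h : blockRel L l x y) : blockRel L l y x :=
  ⟨nearest_symm L x y h.1, h.2.2.1, h.2.1, fun j => (h.2.2.2 j).symm⟩

theorem card_diff (L l : ℕ) (hl : 0 < l) :
    ((Finset.univ.filter fun p : Box L × Box L => ¬(nearest L p.1 p.2 ↔ blockRel L l p.1 p.2)).card : ℝ)
      ≤ 81 * (L : ℝ) ^ 2 * ((l : ℝ) + 2 * ((L : ℝ) / l) + 2) := by
  set P := Finset.univ.filter fun p : Box L × Box L => ¬(nearest L p.1 p.2 ↔ blockRel L l p.1 p.2)
  set p : Fin L → Prop := fun v => L / l * l ≤ v.val ∨ v.val % l = 0 ∨ v.val % l = l - 1 with hp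
  have hfirst : ∀ z ∈ P, ∃ j, p (z.1 j) := by
    rintro ⟨x, y⟩ hz
    simp only [P, Finset.mem_filter, Finset.mem_univ, true_and] at hz
    by_contra hcon
    simp only [p, not_exists, not_or, not_le] at hcon
    refine hz ⟨fun hn => ⟨hn, fun j => (hcon j).1, fun j => ?_, fun j => ?_⟩, fun hb => hb.1⟩
    all_goals
      obtain ⟨c1, c2, c3⟩ := hcon j
      have hd := abs_le.mp (nearest_abs_le hn j)
      have e1 := Nat.div_add_mod (x j).val l
      have e2 := Nat.mod_lt (x j).val hl
      have e3 : (y j).val / l = (x j).val / l := by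
        refine Nat.div_eq_of_lt_le ?_ ?_
        · rw [mul_comm]; omega
        · rw [Nat.succ_mul, mul_comm]; omega
    · have e4 := Nat.div_lt_of_lt_mul (m := (x j).val) (n := l) (k := L / l) (by rw [mul_comm]; exact c1)
      have e5 : (y j).val / l < L / l := by rw [e3]; exact e4
      exact (Nat.div_lt_iff_lt_mul hl).mp e5
    · exact e3.symm
  have hcard : P.card ≤ 27 * (Finset.univ.filter fun x : Box L => ∃ j, p (x j)).card := by
    refine (Finset.card_le_mul_card_image (f := Prod.fst) P 27 fun x _ => ?_).trans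
      (Nat.mul_le_mul_left _ (Finset.card_le_card ?_))
    · refine le_trans ?_ (card_nbrs x)
      refine Finset.card_le_card_of_injOn Prod.snd ?_ ?_
      · intro z hz
        simp only [P, Finset.mem_filter, Finset.mem_univ, true_and, Finset.coe_filter,
          Set.mem_ofPred_eq] at hz ⊢
        obtain ⟨hz1, rfl⟩ := hz
        by_contra hn
        exact hz1 ⟨fun hh => absurd hh hn, fun hh => hh.1⟩
      · intro z hz z' hz' e
        simp only [Finset.coe_filter, Set.mem_ofPred_eq] at hz hz'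
        exact Prod.ext (hz.2.trans hz'.2.symm) e
    · intro x hx
      obtain ⟨z, hz, rfl⟩ := Finset.mem_image.mp hx
      simpa using hfirst z hz
  have hB : (Finset.univ.filter fun x : Box L => ∃ j, p (x j)).card ≤
      3 * (L ^ 2 * (Finset.univ.filter p).card) := by
    refine (Finset.card_le_card (t := Finset.univ.biUnion fun j : Fin 3 =>
      Finset.univ.filter fun x : Box L => p (x j)) ?_).trans ?_
    · intro x hx; simpa using hx
    · refine Finset.card_biUnion_le.trans ((Finset.sum_le_sum fun j _ => (card_coord p j).le).trans ?_)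
      simp
  have hp' : (Finset.univ.filter p).card ≤ l + 2 * (L / l + 1) := by
    simp only [p, Finset.filter_or]
    refine (Finset.card_union_le _ _).trans ?_
    refine Nat.add_le_add ?_ ((Finset.card_union_le _ _).trans ?_)
    · rw [← Finset.card_image_of_injective _ Fin.val_injective]
      refine (Finset.card_le_card (t := Finset.Ico (L / l * l) L) ?_).trans ?_
      · intro v hv
        simp only [Finset.mem_image, Finset.mem_filter, Finset.mem_univ, true_and] at hv
        obtain ⟨w, hw, rfl⟩ := hv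
        exact Finset.mem_Ico.mpr ⟨hw, w.isLt⟩
      · rw [Nat.card_Ico]
        have := Nat.mod_lt L hl
        have := Nat.div_add_mod L l
        rw [mul_comm] at this
        omega
    · have := card_mod_le L l 0; have := card_mod_le L l (l - 1); omega
  have hall : P.card ≤ 81 * L ^ 2 * (l + 2 * (L / l + 1)) := by
    calc P.card ≤ 27 * (3 * (L ^ 2 * (l + 2 * (L / l + 1)))) := hcard.trans (Nat.mul_le_mul_left _
          (hB.trans (Nat.mul_le_mul_left _ (Nat.mul_le_mul_left _ hp'))))
      _ = _ := by ring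
  refine le_trans (Nat.cast_le.mpr hall) ?_
  push_cast
  have := Nat.cast_div_le (α := ℝ) (m := L) (n := l)
  gcongr ?_ * ?_
  linarith

theorem boxLz_compare (n : ℕ) {β : ℝ} (hβ : 0 ≤ β) (h : ℝ) :
    ∃ K : ℝ, 0 ≤ K ∧ ∀ L l : ℕ, 0 < l → 0 < L →
      |boxLz n β h L - boxLz n β h l| ≤ K * (((l : ℝ) + 2) / L + 1 / l) := by
  set c0 := Real.log ((n : ℝ) + 1) + |β * h| * ((n : ℝ) / 2)
  set C1 := β * ((n : ℝ) / 2 * ((n : ℝ) / 2 + 1)) / 2
  have hc0 : 0 ≤ c0 := add_nonneg (Real.log_nonneg (le_add_of_nonneg_left (Nat.cast_nonneg n)))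
    (by positivity)
  have hC1 : 0 ≤ C1 := by positivity
  refine ⟨243 * C1 + 6 * c0, by positivity, fun L l hl hL => ?_⟩
  have hL' : (0 : ℝ) < L := by exact_mod_cast hL
  have hl' : (0 : ℝ) < l := by exact_mod_cast hl
  set q := L / l
  -- Step 1: drop the bonds between sub-boxes
  have s1 := lz_perturb (n := n) (nearest L) (blockRel L l) (nearest_symm L) (nearest_irrefl L)
    blockRel_symm (fun x hx => nearest_irrefl L x hx.1) hβ h
  have s1' := s1.trans (mul_le_mul_of_nonneg_left (card_diff L l hl) hC1)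
  -- Step 2: factorisation
  let m := Fintype.card (Fin 3 → Fin q)
  let e : (Fin m × Box l) ⊕ {x : Box L // ¬inQ L l x} ≃ Box L :=
    (Equiv.sumCongr (((Fintype.equivFin (Fin 3 → Fin q)).symm.prodCongr (Equiv.refl _)).trans
      (blockEquiv L l hl).symm) (Equiv.refl _)).trans (Equiv.sumCompl _)
  have hiso := lz_iso (n := n) e (blockRel L l)
    (sumRel (fun a b : Fin m × Box l => a.1 = b.1 ∧ nearest l a.2 b.2) (noBond _)) (fun x y => by
      rcases x with ⟨a, b⟩ | x <;> rcases y with ⟨a', b'⟩ | y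
      · set A := (Fintype.equivFin (Fin 3 → Fin q)).symm
        have ev : ∀ a b j, ((e (Sum.inl (a, b))) j).val = (A a j).val * l + (b j).val := fun _ _ _ => rfl
        have dv : ∀ a (b : Box l) j, ((e (Sum.inl (a, b))) j).val / l = (A a j).val := fun a b j => by
          rw [ev, mul_comm, Nat.mul_add_div hl, Nat.div_eq_of_lt (b j).isLt, add_zero]
        show (a = a' ∧ nearest l b b') ↔ _
        constructor
        · rintro ⟨rfl, hb⟩
          refine ⟨?_, ((blockEquiv L l hl).symm _).2, ((blockEquiv L l hl).symm _).2, fun j => by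
            rw [dv, dv]⟩
          unfold nearest at *
          rw [← hb]
          refine Finset.sum_congr rfl fun j _ => ?_
          rw [ev, ev]; push_cast; ring_nf
        · rintro ⟨hn, -, -, hq⟩
          have : a = a' := A.injective (funext fun j => Fin.ext (by simpa [dv] using hq j))
          subst this
          refine ⟨rfl, ?_⟩
          unfold nearest at *
          rw [← hn]
          refine Finset.sum_congr rfl fun j _ => ?_
          rw [ev, ev]; push_cast; ring_nf
      · exact iff_of_false id fun hb => y.2 hb.2.2.1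
      · exact iff_of_false id fun hb => x.2 hb.2.1
      · exact iff_of_false id fun hb => x.2 hb.2.1) β h
  rw [lz_sum _ _ (fun a b hab => ⟨hab.1.symm, nearest_symm l _ _ hab.2⟩)
    (fun a haa => nearest_irrefl l _ haa.2) (fun _ _ hh => hh.elim) (fun _ hh => hh.elim),
    lz_copies _ (nearest_symm l) (nearest_irrefl l)] at hiso
  have hW := lz_noBond (V := {x : Box L // ¬inQ L l x}) (n := n) β h
  have hm : (m : ℝ) = (q : ℝ) ^ 3 := by simp [m]
  have hWc : (Fintype.card {x : Box L // ¬inQ L l x} : ℝ) = (L : ℝ) ^ 3 - ((q : ℝ) * l) ^ 3 := by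
    have := Fintype.card_congr e
    simp only [Fintype.card_sum, Fintype.card_prod, Fintype.card_fin, Fintype.card_pi,
      Finset.prod_const, Finset.card_univ] at this
    have h2 : (m : ℝ) * (l : ℝ) ^ 3 + (Fintype.card {x : Box L // ¬inQ L l x} : ℝ) = (L : ℝ) ^ 3 := by
      exact_mod_cast this
    rw [hm] at h2; rw [mul_pow]; linarith
  have hgap : (L : ℝ) ^ 3 - ((q : ℝ) * l) ^ 3 ≤ 3 * (L : ℝ) ^ 2 * l := by
    have h1 : (q : ℝ) * l ≤ L := by exact_mod_cast Nat.div_mul_le_self L l
    have h2 : (L : ℝ) ≤ (q : ℝ) * l + l := by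
      have := Nat.mod_lt L hl
      have := Nat.div_add_mod L l
      have h3 : L ≤ q * l + l := by show L ≤ L / l * l + l; rw [mul_comm]; omega
      exact_mod_cast h3
    have h0 : (0 : ℝ) ≤ (q : ℝ) * l := by positivity
    calc (L : ℝ) ^ 3 - ((q : ℝ) * l) ^ 3
        = ((L : ℝ) - (q : ℝ) * l) * ((L : ℝ) ^ 2 + L * ((q : ℝ) * l) + ((q : ℝ) * l) ^ 2) := by ring
      _ ≤ (l : ℝ) * (3 * (L : ℝ) ^ 2) := by
          have a1 := mul_le_mul_of_nonneg_left h1 hL'.le
          have a2 := mul_le_mul h1 h1 h0 hL'.le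
          refine mul_le_mul (by linarith) ?_ (by positivity) hl'.le
          rw [pow_two, pow_two]; linarith
      _ = _ := by ring
  have hgap0 : 0 ≤ (L : ℝ) ^ 3 - ((q : ℝ) * l) ^ 3 := hWc ▸ Nat.cast_nonneg _
  set f := boxLz n β h l with hf
  have hfl : lz (Box l) n (nearest l) β h = f * (l : ℝ) ^ 3 := by
    rw [hf, boxLz, div_mul_cancel₀ _ (by positivity)]
  have hfb : |f| ≤ c0 + 27 * C1 := by
    rw [hf, boxLz, abs_div, div_le_iff₀ (by positivity), abs_of_pos (by positivity : (0:ℝ) < (l:ℝ) ^ 3)]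
    exact abs_lz_le n hβ h l
  rw [hfl, hm] at hiso
  rw [hWc] at hW
  have expand : boxLz n β h L - f = ((lz (Box L) n (nearest L) β h - lz (Box L) n (blockRel L l) β h) +
      lz {x : Box L // ¬inQ L l x} n (noBond _) β h -
        f * ((L : ℝ) ^ 3 - ((q : ℝ) * l) ^ 3)) / (L : ℝ) ^ 3 := by
    rw [boxLz, ← hiso]; field_simp; ring
  rw [expand, abs_div, abs_of_pos (by positivity : (0 : ℝ) < (L : ℝ) ^ 3), div_le_iff₀ (by positivity)]
  refine (abs_sub _ _).trans ?_
  refine (add_le_add (abs_add_le _ _) le_rfl).trans ?_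
  rw [abs_mul, abs_of_nonneg hgap0]
  have b1 := mul_le_mul hfb hgap hgap0 (by positivity)
  have b2 := hW.trans (mul_le_mul_of_nonneg_left hgap hc0)
  have s2 : |lz (Box L) n (nearest L) β h - lz (Box L) n (blockRel L l) β h| ≤
      C1 * (81 * (L : ℝ) ^ 2 * ((l : ℝ) + 2 * ((L : ℝ) / l) + 2)) := s1'
  have s3 : |lz {x : Box L // ¬inQ L l x} n (noBond _) β h| ≤ c0 * (3 * (L : ℝ) ^ 2 * l) := b2
  refine (add_le_add (add_le_add s2 s3) b1).trans ?_
  have e : ((243 * C1 + 6 * c0) * (((l : ℝ) + 2) / L + 1 / l)) * (L : ℝ) ^ 3 =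
      (243 * C1 + 6 * c0) * (L : ℝ) ^ 2 * ((l : ℝ) + 2 + (L : ℝ) / l) := by
    field_simp
  rw [e]
  have : 0 ≤ (L : ℝ) / l := by positivity
  have hL2 : 0 ≤ (L : ℝ) ^ 2 := by positivity
  nlinarith [mul_nonneg (mul_nonneg hC1 hL2) this, mul_nonneg (mul_nonneg hc0 hL2) this,
    mul_nonneg (mul_nonneg hC1 hL2) hl'.le, mul_nonneg hC1 hL2, mul_nonneg hc0 hL2]

theorem pressure_tendsto (n : ℕ) {β : ℝ} (hβ : 0 < β) (h : ℝ) :
    ∃ p, Tendsto (fun N => pressure n N β h) atTop (𝓝 p) := by
  obtain ⟨K, hK0, hK⟩ := boxLz_compare n hβ.le h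
  refine cauchySeq_tendsto_of_complete ?_
  have hc : CauchySeq fun N : ℕ => boxLz n β h (2 * N + 1) := by
    rw [Metric.cauchySeq_iff]
    intro ε hε
    obtain ⟨l, hl⟩ := exists_nat_gt (4 * K / ε)
    have hl0 : 0 < l + 1 := l.succ_pos
    have hlK : K / ((l : ℝ) + 1) < ε / 4 := by
      rw [div_lt_iff₀ (by positivity)]
      rw [div_lt_iff₀ hε] at hl
      nlinarith
    obtain ⟨N, hN⟩ := exists_nat_gt (4 * K * ((l : ℝ) + 3) / ε)
    have key : ∀ M ≥ N, |boxLz n β h (2 * M + 1) - boxLz n β h (l + 1)| < ε / 2 := fun M hM => by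
      have hM' : (N : ℝ) ≤ M := by exact_mod_cast hM
      have := hK (2 * M + 1) (l + 1) hl0 (2 * M).succ_pos
      push_cast at this
      have h2 : K * (((l : ℝ) + 1 + 2) / (2 * M + 1)) < ε / 4 := by
        rw [← mul_div_assoc, div_lt_iff₀ (by positivity)]
        rw [div_lt_iff₀ hε] at hN
        nlinarith
      rw [mul_add, mul_one_div] at this
      linarith
    refine ⟨N, fun a ha b hb => ?_⟩
    rw [Real.dist_eq]
    have := key a ha; have := key b hb
    calc |boxLz n β h (2 * a + 1) - boxLz n β h (2 * b + 1)|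
        ≤ |boxLz n β h (2 * a + 1) - boxLz n β h (l + 1)| + |boxLz n β h (l + 1) - boxLz n β h (2 * b + 1)| :=
          abs_sub_le _ _ _
      _ < ε := by rw [abs_sub_comm (boxLz n β h (l + 1))]; linarith
  have e : (fun N => pressure n N β h) = fun N : ℕ => β⁻¹ * boxLz n β h (2 * N + 1) := by
    funext N
    rw [pressure_eq, boxLz]; push_cast; field_simp
  rw [e]
  exact (uniformContinuous_const_smul β⁻¹).comp_cauchySeq hc

end Vale.Agent.P361
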