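import Vale.Agent.P361.Spin

/-!
# The spin-wave lower bound on the magnetization deficit in finite volume
-/

open scoped BigOperators ComplexOrder
open Matrix

set_option linter.unusedSectionVars false

namespace Vale.Agent.P361

variable {V : Type} [Fintype V] [DecidableEq V] {n : ℕ}

theorem br_add_right {R : Type*} [Ring R] (a b c : R) : br a (b + c) = br a b + br a c := by
  simp only [br]; noncomm_ring

theorem br_sub_left {R : Type*} [Ring R] (a b c : R) : br (a - b) c = br a c - br b c := by
  simp only [br]; noncomm_ring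

theorem br_sub_right {R : Type*} [Ring R] (a b c : R) : br a (b - c) = br a b - br a c := by
  simp only [br]; noncomm_ring

theorem br_mul_right {R : Type*} [Ring R] (a b c : R) : br a (b * c) = br a b * c + b * br a c := by
  simp only [br]; noncomm_ring

theorem br_mul_left {R : Type*} [Ring R] (a b c : R) : br (a * b) c = a * br b c + br a c * b := by
  simp only [br]; noncomm_ring

theorem br_smul_right {R : Type*} [Ring R] [Algebra ℂ R] (z : ℂ) (a b : R) :
    br a (z • b) = z • br a b := by
  simp [br, smul_sub]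

theorem br_smul_left {R : Type*} [Ring R] [Algebra ℂ R] (z : ℂ) (a b : R) :
    br (z • a) b = z • br a b := by
  simp [br, smul_sub]

theorem br_sum_left {R α : Type*} [Ring R] (s : Finset α) (a : α → R) (b : R) :
    br (∑ i ∈ s, a i) b = ∑ i ∈ s, br (a i) b := by
  simp [br, Finset.sum_mul, Finset.mul_sum]

theorem br_sum_right {R α : Type*} [Ring R] (s : Finset α) (a : R) (b : α → R) :
    br a (∑ i ∈ s, b i) = ∑ i ∈ s, br a (b i) := by
  simp [br, Finset.sum_mul, Finset.mul_sum]

/-- `S⁺` with amplitudes `f` -/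
noncomputable def opA (n : ℕ) (f : V → ℂ) : Matrix (V → Fin (n + 1)) (V → Fin (n + 1)) ℂ :=
  ∑ z, f z • opP n z

theorem opA_star (f : V → ℂ) : (opA n f)ᴴ = ∑ z, star (f z) • opQ n z := by
  simp [opA, conjTranspose_sum, opP_star]

theorem br_P_dot (z : V) {x y : V} (h : x ≠ y) :
    br (opP n z) (spinDot n x y) =
      (if z = y then (1:ℂ) else 0) • (opP n x * opZ n y - opZ n x * opP n y) -
        (if z = x then (1:ℂ) else 0) • (opP n x * opZ n y - opZ n x * opP n y) := by
  rw [spinDot_eq, br_add_right, br_smul_right, br_add_right, br_mul_right, br_mul_right, br_mul_right,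
    br_PZ, br_PZ, br_PQ, br_PQ, br_PP, br_PP]
  by_cases hx : z = x <;> by_cases hy : z = y
  · exact absurd (hx ▸ hy) h
  · subst hx
    simp [hy]; abel
  · subst hy
    simp [hx]; abel
  · simp [hx, hy]

theorem br_A_dot (f : V → ℂ) {x y : V} (h : x ≠ y) :
    br (opA n f) (spinDot n x y) =
      (-(f x - f y)) • (opP n x * opZ n y - opZ n x * opP n y) := by
  simp only [opA, br_sum_left, br_smul_left, br_P_dot _ h, smul_sub (f _) (_ : Matrix _ _ ℂ),
    smul_smul, Finset.sum_sub_distrib, ← Finset.sum_smul, mul_ite, mul_one, mul_zero,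
    Finset.sum_ite_eq', Finset.mem_univ, if_true]
  rw [neg_sub, sub_smul]
  simp only [smul_sub]

theorem br_bond_Q (z : V) {x y : V} :
    br (opP n x * opZ n y - opZ n x * opP n y) (opQ n z) =
      (if z = x then (1:ℂ) else 0) • ((2:ℂ) • (opZ n x * opZ n y) + opQ n x * opP n y) -
        (if z = y then (1:ℂ) else 0) • ((2:ℂ) • (opZ n x * opZ n y) + opP n x * opQ n y) := by
  rw [br_sub_left, br_mul_left, br_mul_left, br_ZQ, br_PQ, br_ZQ, br_PQ]
  by_cases hx : x = z <;> by_cases hy : y = z
  · subst hx hy; simp; abel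
  · subst hx; simp [hy, Ne.symm hy]
  · subst hy; simp [hx, Ne.symm hx]; abel
  · simp [hx, hy, Ne.symm hx, Ne.symm hy]

theorem bond_pair (f : V → ℂ) {x y : V} (h : x ≠ y) :
    br (br (opA n f) (spinDot n x y)) (opA n f)ᴴ +
        br (br (opA n (fun z => star (f z))) (spinDot n x y)) (opA n (fun z => star (f z)))ᴴ =
      -(((2 * ((f x - f y) * star (f x)).re : ℝ) : ℂ) •
            ((2:ℂ) • (opZ n x * opZ n y) + opQ n x * opP n y) -
          ((2 * ((f x - f y) * star (f y)).re : ℝ) : ℂ) •
            ((2:ℂ) • (opZ n x * opZ n y) + opP n x * opQ n y)) := by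
  have e : ∀ g : V → ℂ, br (br (opA n g) (spinDot n x y)) (opA n g)ᴴ =
      (-(g x - g y) * star (g x)) • ((2:ℂ) • (opZ n x * opZ n y) + opQ n x * opP n y) -
        (-(g x - g y) * star (g y)) • ((2:ℂ) • (opZ n x * opZ n y) + opP n x * opQ n y) := by
    intro g
    rw [br_A_dot g h, br_smul_left, opA_star, br_sum_right]
    simp only [br_smul_right, br_bond_Q, smul_sub (star (g _)) (_ : Matrix _ _ ℂ), smul_smul,
      Finset.sum_sub_distrib, ← Finset.sum_smul, mul_ite, mul_one, mul_zero, Finset.sum_ite_eq',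
      Finset.mem_univ, if_true]
    rw [smul_sub, smul_smul, smul_smul]
  have hre : ∀ z w : ℂ, ((2 * ((z - w) * star z).re : ℝ) : ℂ) =
      (z - w) * star z + star ((z - w) * star z) := fun z w => by
    rw [Complex.star_def, Complex.add_conj]
  have hre' : ∀ z w : ℂ, ((2 * ((z - w) * star w).re : ℝ) : ℂ) =
      (z - w) * star w + star ((z - w) * star w) := fun z w => by
    rw [Complex.star_def, Complex.add_conj]
  rw [e, e, hre, hre']
  simp only [star_star, star_mul', star_sub]
  module

theorem br_A_M (f : V → ℂ) : br (opA n f) (∑ x, opZ n x) = -opA n f := by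
  simp only [opA, br_sum_left, br_smul_left, br_sum_right, br_PZ, smul_ite, smul_zero,
    Finset.sum_ite_eq', Finset.mem_univ, if_true, smul_neg, Finset.sum_neg_distrib]

theorem br_A_star (f : V → ℂ) :
    br (opA n f) (opA n f)ᴴ = ∑ z, ((2 * Complex.normSq (f z) : ℝ) : ℂ) • opZ n z := by
  rw [opA_star]
  simp only [opA, br_sum_left, br_smul_left, br_sum_right, br_smul_right, br_PQ, smul_ite,
    smul_zero, Finset.sum_ite_eq', Finset.mem_univ, if_true, smul_smul]
  refine Finset.sum_congr rfl fun z _ => ?_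
  congr 1
  rw [Complex.ofReal_mul, Complex.normSq_eq_conj_mul_self]
  simp [Complex.star_def]; ring

theorem hamiltonian_eq (r : V → V → Prop) [DecidableRel r] (h : ℝ) :
    hamiltonian n r h = ((-(1 / 2) : ℝ) : ℂ) • (∑ x, ∑ y, if r x y then spinDot n x y else 0) -
      (h : ℂ) • ∑ x, opZ n x := by
  simp [hamiltonian, opZ, spinMat_two]

theorem hamiltonian_herm (r : V → V → Prop) [DecidableRel r] (hsymm : ∀ x y, r x y → r y x)
    (hirr : ∀ x, ¬r x x) (h : ℝ) : (hamiltonian n r h).IsHermitian := by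
  have hD : (∑ x, ∑ y, if r x y then spinDot n x y else 0)ᴴ =
      ∑ x, ∑ y, if r x y then spinDot n x y else 0 := by
    simp only [conjTranspose_sum]
    refine Finset.sum_congr rfl fun x _ => Finset.sum_congr rfl fun y _ => ?_
    split_ifs with hr
    · exact spinDot_herm (fun e => hirr x (e ▸ hr : r x x))
    · exact conjTranspose_zero
  rw [Matrix.IsHermitian, hamiltonian_eq, conjTranspose_sub, conjTranspose_smul, conjTranspose_smul,
    hD, conjTranspose_sum]
  simp [opZ_star, Complex.conj_ofReal]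

variable {β : ℝ} {K : Matrix (V → Fin (n + 1)) (V → Fin (n + 1)) ℂ}

theorem spinZ_range (j : Fin (n + 1)) : |(n : ℝ) / 2 - (j.val : ℝ)| ≤ (n : ℝ) / 2 := by
  have h : (j.val : ℝ) ≤ n := by exact_mod_cast Nat.lt_succ_iff.mp j.2
  have h0 : (0:ℝ) ≤ j.val := Nat.cast_nonneg _
  rw [abs_le]; constructor <;> linarith

theorem opZ_le (hK : K.IsHermitian) (x : V) : gexp β K (opZ n x) ≤ (n : ℝ) / 2 := by
  have h := gexp_diagonal_nonneg hK (β := β)
    (d := fun σ : V → Fin (n + 1) => (n : ℝ) / 2 - ((n : ℝ) / 2 - ((σ x).val : ℝ)))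
    (fun σ => by have := abs_le.mp (spinZ_range (n := n) (σ x)); linarith)
  rw [show (diagonal fun σ : V → Fin (n + 1) =>
      (((n : ℝ) / 2 - ((n : ℝ) / 2 - ((σ x).val : ℝ)) : ℝ) : ℂ)) =
      (((n : ℝ) / 2 : ℝ) : ℂ) • 1 - opZ n x by
    rw [opZ, spinZ, siteOp_diagonal, ← diagonal_one, ← diagonal_smul, diagonal_sub]
    congr 1; funext σ; simp,
    gexp_sub, gexp_smul, gexp_one hK] at h
  linarith

theorem neg_le_opZ (hK : K.IsHermitian) (x : V) : -((n : ℝ) / 2) ≤ gexp β K (opZ n x) := by
  have h := gexp_diagonal_nonneg hK (β := β)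
    (d := fun σ : V → Fin (n + 1) => (n : ℝ) / 2 + ((n : ℝ) / 2 - ((σ x).val : ℝ)))
    (fun σ => by have := abs_le.mp (spinZ_range (n := n) (σ x)); linarith)
  rw [show (diagonal fun σ : V → Fin (n + 1) =>
      (((n : ℝ) / 2 + ((n : ℝ) / 2 - ((σ x).val : ℝ)) : ℝ) : ℂ)) =
      (((n : ℝ) / 2 : ℝ) : ℂ) • 1 + opZ n x by
    rw [opZ, spinZ, siteOp_diagonal, ← diagonal_one, ← diagonal_smul, diagonal_add]
    congr 1; funext σ; simp,
    gexp_add, gexp_smul, gexp_one hK] at h
  linarith

theorem opZZ_le (hK : K.IsHermitian) (x y : V) :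
    gexp β K (opZ n x * opZ n y) ≤ ((n : ℝ) / 2) ^ 2 := by
  have h := gexp_diagonal_nonneg hK (β := β)
    (d := fun σ : V → Fin (n + 1) =>
      ((n : ℝ) / 2) ^ 2 - ((n : ℝ) / 2 - ((σ x).val : ℝ)) * ((n : ℝ) / 2 - ((σ y).val : ℝ)))
    (fun σ => by
      have ha := spinZ_range (n := n) (σ x)
      have hb := spinZ_range (n := n) (σ y)
      have := mul_le_mul ha hb (abs_nonneg _) (by positivity)
      rw [← abs_mul] at this
      have := le_abs_self (((n : ℝ) / 2 - ((σ x).val : ℝ)) * ((n : ℝ) / 2 - ((σ y).val : ℝ)))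
      nlinarith)
  rw [show (diagonal fun σ : V → Fin (n + 1) => ((((n : ℝ) / 2) ^ 2 -
      ((n : ℝ) / 2 - ((σ x).val : ℝ)) * ((n : ℝ) / 2 - ((σ y).val : ℝ)) : ℝ) : ℂ)) =
      ((((n : ℝ) / 2) ^ 2 : ℝ) : ℂ) • 1 - opZ n x * opZ n y by
    rw [opZ, opZ, spinZ, siteOp_diagonal, siteOp_diagonal, diagonal_mul_diagonal, ← diagonal_one,
      ← diagonal_smul, diagonal_sub]
    congr 1; funext σ; simp,
    gexp_sub, gexp_smul, gexp_one hK] at h
  linarith

theorem opQP_le (hK : K.IsHermitian) (x : V) :
    gexp β K (opQ n x * opP n x) ≤ (n : ℝ) * ((n : ℝ) / 2 - gexp β K (opZ n x)) := by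
  have h := gexp_diagonal_nonneg hK (β := β)
    (d := fun σ : V → Fin (n + 1) => (n : ℝ) * ((σ x).val : ℝ) -
      ((σ x).val : ℝ) * ((n : ℝ) + 1 - (σ x).val))
    (fun σ => by
      rcases Nat.eq_zero_or_pos (σ x).val with h0 | h0
      · simp [h0]
      · have h1 : (1:ℝ) ≤ (σ x).val := by exact_mod_cast h0
        nlinarith)
  rw [show (diagonal fun σ : V → Fin (n + 1) => (((n : ℝ) * ((σ x).val : ℝ) -
      ((σ x).val : ℝ) * ((n : ℝ) + 1 - (σ x).val) : ℝ) : ℂ)) =
      ((((n : ℝ) * ((n : ℝ) / 2)) : ℝ) : ℂ) • 1 - ((n : ℝ) : ℂ) • opZ n x - opQ n x * opP n x by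
    rw [opQ, opP, ← siteOp_mul, minus_plus, opZ, spinZ, siteOp_diagonal, siteOp_diagonal,
      ← diagonal_one, ← diagonal_smul, ← diagonal_smul, diagonal_sub, diagonal_sub]
    congr 1; funext σ; simp; ring,
    gexp_sub, gexp_sub, gexp_smul, gexp_smul, gexp_one hK] at h
  linarith

theorem opQP_cross (hK : K.IsHermitian) (x y : V) (h : x ≠ y) :
    2 * gexp β K (opQ n x * opP n y) ≤
      gexp β K (opQ n x * opP n x) + gexp β K (opQ n y * opP n y) := by
  have h0 := gexp_star_mul_self_nonneg hK (β := β) (opP n x - opP n y)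
  rw [conjTranspose_sub, opP_star, opP_star] at h0
  have h1 : gexp β K (opQ n y * opP n x) = gexp β K (opQ n x * opP n y) := by
    rw [← gexp_conjTranspose hK (β := β) (opQ n x * opP n y), conjTranspose_mul]
    simp only [← opP_star, conjTranspose_conjTranspose]
  rw [Matrix.sub_mul, Matrix.mul_sub, Matrix.mul_sub] at h0
  simp only [gexp_sub] at h0
  linarith

theorem weighted_sum (r : V → V → Prop) [DecidableRel r] (hsymm : ∀ x y, r x y → r y x)
    (f : V → ℂ) {ε w : ℝ}
    (hf : ∀ x, ∑ y, (if r x y then Complex.normSq (f x - f y) else 0) ≤ w * ε)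
    (S : ℝ) (D : V → ℝ) (hS0 : 0 ≤ S) (hD0 : ∀ x, 0 ≤ D x) :
    ∑ x, ∑ y, (if r x y then 2 * Complex.normSq (f x - f y) * (2 * S ^ 2 + S * D x + S * D y) else 0) ≤
      2 * (w * ε) * (2 * S ^ 2 * Fintype.card V + 2 * S * ∑ x, D x) := by
  set g := fun x y => if r x y then Complex.normSq (f x - f y) else 0 with hg
  have hgs : ∀ x y, g x y = g y x := fun x y => by
    simp only [hg]
    rw [show Complex.normSq (f x - f y) = Complex.normSq (f y - f x) by
      rw [← neg_sub, Complex.normSq_neg]]
    exact if_congr ⟨hsymm x y, hsymm y x⟩ rfl rfl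
  calc ∑ x, ∑ y, (if r x y then 2 * Complex.normSq (f x - f y) * (2 * S ^ 2 + S * D x + S * D y)
        else 0)
      = ∑ x, ∑ y, (g x y * (4 * S ^ 2 + 2 * S * D x) + g x y * (2 * S * D y)) := by
        refine Finset.sum_congr rfl fun x _ => Finset.sum_congr rfl fun y _ => ?_
        simp only [hg]; split_ifs <;> ring
    _ = ∑ x, (∑ y, g x y) * (4 * S ^ 2 + 2 * S * D x) + ∑ x, (∑ y, g x y) * (2 * S * D x) := by
        simp only [Finset.sum_add_distrib, Finset.sum_mul]
        congr 1
        rw [Finset.sum_comm]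
        exact Finset.sum_congr rfl fun x _ => Finset.sum_congr rfl fun y _ => by rw [hgs]
    _ ≤ ∑ x, (w * ε) * (4 * S ^ 2 + 2 * S * D x) + ∑ x, (w * ε) * (2 * S * D x) := by
        refine add_le_add (Finset.sum_le_sum fun x _ => ?_) (Finset.sum_le_sum fun x _ => ?_)
        · refine mul_le_mul_of_nonneg_right (hf x) ?_
          have := mul_nonneg hS0 (hD0 x); nlinarith
        · refine mul_le_mul_of_nonneg_right (hf x) ?_
          have := mul_nonneg hS0 (hD0 x); linarith
    _ = _ := by
        simp only [← Finset.mul_sum, Finset.sum_add_distrib, Finset.sum_const, Finset.card_univ,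
          nsmul_eq_mul]
        ring

theorem pair_b (r : V → V → Prop) [DecidableRel r] (hsymm : ∀ x y, r x y → r y x)
    (hirr : ∀ x, ¬r x x) (hK : K.IsHermitian) (f : V → ℂ) {ε w : ℝ} (hε : 0 ≤ ε)
    (hf : ∀ x, ∑ y, (if r x y then Complex.normSq (f x - f y) else 0) ≤ w * ε) :
    gexp β K (br (br (opA n f) (∑ x, ∑ y, if r x y then spinDot n x y else 0)) (opA n f)ᴴ +
        br (br (opA n fun z => star (f z)) (∑ x, ∑ y, if r x y then spinDot n x y else 0))
          (opA n fun z => star (f z))ᴴ) ≥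
      -(2 * (w * ε) * (2 * ((n : ℝ) / 2) ^ 2 * Fintype.card V +
        2 * ((n : ℝ) / 2) * ∑ x, ((n : ℝ) / 2 - gexp β K (opZ n x)))) := by
  simp only [br_sum_right, br_sum_left, ← Finset.sum_add_distrib, gexp_sum]
  set S := (n : ℝ) / 2 with hS
  set D := fun x => S - gexp β K (opZ n x) with hD
  have hD0 : ∀ x, 0 ≤ D x := fun x => sub_nonneg.mpr (opZ_le hK x)
  have hS0 : 0 ≤ S := by positivity
  have key : ∀ x y, gexp β K
      (br (br (opA n f) (if r x y then spinDot n x y else 0)) (opA n f)ᴴ +
        br (br (opA n fun z => star (f z)) (if r x y then spinDot n x y else 0))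
          (opA n fun z => star (f z))ᴴ) ≥
      -(if r x y then 2 * Complex.normSq (f x - f y) * (2 * S ^ 2 + S * D x + S * D y) else 0) := by
    intro x y
    split_ifs with hr
    swap
    · simp [br, gexp_zero]
    have hne : x ≠ y := fun e => hirr x (e ▸ hr : r x x)
    rw [bond_pair f hne]
    have hg : gexp β K (opP n x * opQ n y) = gexp β K (opQ n x * opP n y) := by
      rw [← gexp_conjTranspose hK (β := β) (opQ n x * opP n y), conjTranspose_mul]
      simp only [← opP_star, conjTranspose_conjTranspose]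
      rw [opP_star]
      exact congrArg _ (siteOp_comm hne _ _)
    rw [gexp_neg, gexp_sub, gexp_smul, gexp_smul, gexp_add, gexp_add, hg,
      show (2:ℂ) = ((2:ℝ):ℂ) by norm_num, gexp_smul]
    have hd : 2 * ((f x - f y) * star (f x)).re - 2 * ((f x - f y) * star (f y)).re =
        2 * Complex.normSq (f x - f y) := by
      simp [Complex.normSq_apply, Complex.mul_re]; ring
    set a := 2 * gexp β K (opZ n x * opZ n y) + gexp β K (opQ n x * opP n y)
    have ha : a ≤ 2 * S ^ 2 + S * D x + S * D y := by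
      have h1 := opZZ_le hK (β := β) x y
      have h2 := opQP_cross hK (β := β) x y hne
      have h3 := opQP_le hK (β := β) x
      have h4 := opQP_le hK (β := β) y
      simp only [a, hD, hS] at *
      linarith
    have h5 : 2 * ((f x - f y) * star (f x)).re * a - 2 * ((f x - f y) * star (f y)).re * a =
        2 * Complex.normSq (f x - f y) * a := by rw [← sub_mul, hd]
    have h6 : 2 * Complex.normSq (f x - f y) * a ≤
        2 * Complex.normSq (f x - f y) * (2 * S ^ 2 + S * D x + S * D y) :=
      mul_le_mul_of_nonneg_left ha (mul_nonneg zero_le_two (Complex.normSq_nonneg _))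
    linarith
  refine le_trans ?_ (Finset.sum_le_sum fun x _ => Finset.sum_le_sum fun y _ => key x y)
  simp only [Finset.sum_neg_distrib, neg_le_neg_iff]
  exact (weighted_sum r hsymm f hf S D hS0 hD0).trans (le_of_eq (by
    simp only [hD, hS]))

/-- **Finite-volume spin-wave bound.** -/
theorem magnon_bound {ρ : Type*} [Fintype ρ] [DecidableEq ρ] [Nonempty V] (r : V → V → Prop) [DecidableRel r]
    (hsymm : ∀ x y, r x y → r y x) (hirr : ∀ x, ¬r x x) {h : ℝ} (hh : 0 < h) (hβ : 0 < β)
    (f : ρ → V → ℂ) (ε : ρ → ℝ) (hε : ∀ k, 0 ≤ ε k)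
    (hnorm : ∀ k z, Complex.normSq (f k z) = 1 / (Fintype.card V : ℝ))
    (hcompl : ∀ x y, ∑ k, star (f k x) * f k y = if x = y then 1 else 0)
    (hlap : ∀ k x, ∑ y, (if r x y then Complex.normSq (f k x - f k y) else 0) ≤
      2 / (Fintype.card V : ℝ) * ε k)
    {m : ℝ} (hm : m = (∑ x, gexp β (hamiltonian n r h) (opZ n x)) / (Fintype.card V : ℝ))
    (hm0 : 0 < m) :
    m * ((∑ k, 1 / (Real.exp (β * (ε k * ((n : ℝ) / 2) * ((n : ℝ) - m) / m + h)) - 1)) /
        (Fintype.card V : ℝ)) ≤ (n : ℝ) / 2 * ((n : ℝ) / 2 - m) := by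
  set K := hamiltonian n r h with hKdef
  have hK : K.IsHermitian := hamiltonian_herm r hsymm hirr h
  set S := (n : ℝ) / 2 with hS
  set c := (Fintype.card V : ℝ) with hc
  have hc0 : 0 < c := by rw [hc]; exact_mod_cast Fintype.card_pos
  have hsumz : ∑ x, gexp β K (opZ n x) = m * c := by rw [hm]; field_simp
  have hmS : m ≤ S := by
    rw [hm, div_le_iff₀ hc0]
    calc _ ≤ ∑ _x : V, S := Finset.sum_le_sum fun x _ => opZ_le hK x
      _ = _ := by simp [hc, mul_comm]
  have hn : (n : ℝ) = 2 * S := by rw [hS]; ring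
  have per : ∀ k, 4 * m / (Real.exp (β * (ε k * S * ((n : ℝ) - m) / m + h)) - 1) ≤
      gexp β K ((opA n (f k))ᴴ * opA n (f k)) +
        gexp β K ((opA n fun z => star (f k z))ᴴ * opA n fun z => star (f k z)) := by
    intro k
    set g : Bool → V → ℂ := fun b => if b then f k else fun z => star (f k z) with hg
    have hbr : ∀ b, gexp β K (opA n (g b) * (opA n (g b))ᴴ - (opA n (g b))ᴴ * opA n (g b)) = 2 * m := by
      intro b
      have := br_A_star (n := n) (g b)
      rw [br] at this
      rw [this, gexp_sum]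
      have hb : ∀ z, Complex.normSq (g b z) = 1 / c := fun z => by
        cases b <;> simp [hg, hnorm, hc]
      simp only [gexp_smul, hb, ← Finset.mul_sum, hsumz]
      field_simp
    have hcs : ∑ b, gexp β K (opA n (g b) * (opA n (g b))ᴴ - (opA n (g b))ᴴ * opA n (g b)) = 4 * m := by
      simp only [hbr]; simp; ring
    have harg : 0 < β * (ε k * S * ((n : ℝ) - m) / m + h) := by
      have : 0 ≤ ε k * S * ((n : ℝ) - m) / m :=
        div_nonneg (mul_nonneg (mul_nonneg (hε k) (by positivity)) (by linarith [hmS, (show (0:ℝ) ≤ S by positivity)])) hm0.le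
      positivity
    have hb := pair_b (β := β) r hsymm hirr hK (f k) (hε k) (hlap k)
    have key := bose_jensen hK (fun b => opA n (g b)) hβ harg (by
      rw [hcs]
      have expand : ∀ b, (opA n (g b) * K - K * opA n (g b)) * (opA n (g b))ᴴ -
          (opA n (g b))ᴴ * (opA n (g b) * K - K * opA n (g b)) =
          ((-(1/2) : ℝ) : ℂ) • br (br (opA n (g b)) (∑ x, ∑ y, if r x y then spinDot n x y else 0))
              (opA n (g b))ᴴ +
            (h : ℂ) • br (opA n (g b)) (opA n (g b))ᴴ := by
        intro b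
        change br (br (opA n (g b)) K) (opA n (g b))ᴴ = _
        rw [hKdef, hamiltonian_eq, br_sub_right, br_smul_right, br_smul_right, br_A_M, br_sub_left,
          br_smul_left, br_smul_left]
        simp only [br]; simp; module
      simp only [expand, gexp_add, gexp_smul, Finset.sum_add_distrib, ← Finset.mul_sum]
      have hbr' : ∀ b, gexp β K (br (opA n (g b)) (opA n (g b))ᴴ) = 2 * m := hbr
      simp only [hbr']
      have e2 : ∑ b, gexp β K (br (br (opA n (g b)) (∑ x, ∑ y, if r x y then spinDot n x y else 0))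
          (opA n (g b))ᴴ) ≥ -(2 * (2 / c * ε k) * (2 * S ^ 2 * c + 2 * S * (c * (S - m)))) := by
        rw [Fintype.sum_bool]
        simp only [hg, if_true, Bool.false_eq_true, if_false]
        rw [← gexp_add]
        refine le_of_eq_of_le ?_ hb
        simp only [Finset.sum_sub_distrib, hsumz, Finset.sum_const, Finset.card_univ, nsmul_eq_mul,
          hc, hS]
        ring
      have e3 : -(2 * (2 / c * ε k) * (2 * S ^ 2 * c + 2 * S * (c * (S - m)))) =
          -(8 * ε k * S * ((n : ℝ) - m)) := by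
        rw [hn]; field_simp; ring
      have e4 : β * (ε k * S * ((n : ℝ) - m) / m + h) * (4 * m) =
          β * (4 * ε k * S * ((n : ℝ) - m) + h * (4 * m)) := by field_simp
      rw [e4]
      refine mul_le_mul_of_nonneg_left ?_ hβ.le
      rw [Fintype.sum_bool (f := fun _ => 2 * m)]
      linarith)
    rw [hcs] at key
    simpa [hg] using key
  have hcp : ∑ k, (gexp β K ((opA n (f k))ᴴ * opA n (f k)) +
      gexp β K ((opA n fun z => star (f k z))ᴴ * opA n fun z => star (f k z))) ≤
      4 * S * (c * (S - m)) := by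
    have e : ∀ F : ρ → V → ℂ, (∀ x y, ∑ k, star (F k x) * F k y = if x = y then 1 else 0) →
        ∑ k, gexp β K ((opA n (F k))ᴴ * opA n (F k)) ≤ 2 * S * (c * (S - m)) := by
      intro F hF
      rw [← gexp_sum]
      have : ∑ k, (opA n (F k))ᴴ * opA n (F k) = ∑ x, opQ n x * opP n x := by
        simp only [opA_star]
        simp only [opA, Finset.sum_mul, Finset.mul_sum, smul_mul_assoc, mul_smul_comm, Finset.smul_sum,
          smul_smul]
        rw [Finset.sum_comm]
        refine Finset.sum_congr rfl fun x _ => ?_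
        rw [Finset.sum_comm]
        simp only [← Finset.sum_smul]
        simp only [show ∀ y, ∑ k, star (F k x) * F k y = if x = y then 1 else 0 from hF x,
          show ∀ y, ∑ k, F k y * star (F k x) = if x = y then 1 else 0 from
            fun y => by simp only [mul_comm (F _ y)]; exact hF x y,
          show ∀ y, ∑ k, F k x * star (F k y) = if y = x then 1 else 0 from
            fun y => by simp only [mul_comm (F _ x)]; exact hF y x,
          show ∀ y, ∑ k, star (F k y) * F k x = if y = x then 1 else 0 from fun y => hF y x,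
          ite_smul, one_smul, zero_smul, Finset.sum_ite_eq, Finset.sum_ite_eq', Finset.mem_univ, if_true]
      rw [this, gexp_sum]
      calc ∑ x, gexp β K (opQ n x * opP n x) ≤ ∑ x, (n : ℝ) * (S - gexp β K (opZ n x)) :=
            Finset.sum_le_sum fun x _ => opQP_le hK x
        _ = _ := by
            simp only [← Finset.mul_sum, Finset.sum_sub_distrib, hsumz, Finset.sum_const,
              Finset.card_univ, nsmul_eq_mul]
            rw [hn, hc]; ring
    rw [Finset.sum_add_distrib]
    have e2 := e (fun k z => star (f k z)) (fun x y => by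
      have := congrArg star (hcompl x y)
      simp only [star_sum, star_mul', star_star] at this ⊢
      rw [this]; split_ifs <;> simp)
    linarith [e f hcompl]
  have total := (Finset.sum_le_sum fun k _ => per k).trans hcp
  rw [← mul_div_assoc, div_le_iff₀ hc0, Finset.mul_sum]
  have : ∑ k, m * (1 / (Real.exp (β * (ε k * S * ((n : ℝ) - m) / m + h)) - 1)) =
      (1 / 4) * ∑ k, 4 * m / (Real.exp (β * (ε k * S * ((n : ℝ) - m) / m + h)) - 1) := by
    rw [Finset.mul_sum]; exact Finset.sum_congr rfl fun k _ => by ring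
  rw [this]; linarith

end Vale.Agent.P361
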