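import Vale.Agent.P361.Defs
import Vale.Agent.P361.Gibbs

/-!
# Spin algebra
-/

open scoped BigOperators ComplexOrder
open Matrix

set_option linter.unusedSectionVars false

namespace Vale.Agent.P361

variable {n : ℕ}

/-- coefficient of `S⁺` -/
noncomputable def coef (n : ℕ) (j : ℕ) : ℝ := Real.sqrt ((j : ℝ) * ((n : ℝ) + 1 - (j : ℝ)))

theorem coef_sq {j : ℕ} (hj : j ≤ n + 1) : coef n j * coef n j = (j : ℝ) * ((n : ℝ) + 1 - j) := by
  have : (j : ℝ) ≤ (n : ℝ) + 1 := by exact_mod_cast hj
  exact Real.mul_self_sqrt (mul_nonneg (Nat.cast_nonneg j) (by linarith))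

theorem spinPlus_apply (i j : Fin (n + 1)) :
    spinPlus n i j = if i.val + 1 = j.val then (coef n j.val : ℂ) else 0 := rfl

theorem minus_plus : (spinPlus n)ᴴ * spinPlus n =
    diagonal fun j : Fin (n + 1) => (((j.val : ℝ) * ((n : ℝ) + 1 - j.val) : ℝ) : ℂ) := by
  ext i j
  simp only [Matrix.mul_apply, conjTranspose_apply, spinPlus_apply, diagonal_apply]
  rcases Nat.eq_zero_or_pos i.val with h0 | h0
  · rw [Finset.sum_eq_zero fun k _ => by
      rw [if_neg (show ¬(k.val + 1 = i.val) by omega)]; simp]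
    split_ifs <;> simp [h0]
  · have hk : i.val - 1 < n + 1 := by omega
    rw [Finset.sum_eq_single ⟨i.val - 1, hk⟩
      (fun b _ hb => by
        have : b.val ≠ i.val - 1 := fun h => hb (Fin.ext h)
        rw [if_neg (show ¬(b.val + 1 = i.val) by omega)]; simp)
      (fun h => absurd (Finset.mem_univ _) h)]
    rw [if_pos (show i.val - 1 + 1 = i.val by omega)]
    by_cases h : i = j
    · subst h
      rw [if_pos (show i.val - 1 + 1 = i.val by omega), if_pos rfl, Complex.star_def,
        Complex.conj_ofReal, ← Complex.ofReal_mul, coef_sq (by omega)]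
    · have : i.val ≠ j.val := fun h' => h (Fin.ext h')
      rw [if_neg (show ¬(i.val - 1 + 1 = j.val) by omega), if_neg h, mul_zero]

theorem plus_minus : spinPlus n * (spinPlus n)ᴴ =
    diagonal fun i : Fin (n + 1) => ((((i.val : ℝ) + 1) * ((n : ℝ) - i.val) : ℝ) : ℂ) := by
  ext i j
  simp only [Matrix.mul_apply, conjTranspose_apply, spinPlus_apply, diagonal_apply]
  rcases lt_or_ge (i.val + 1) (n + 1) with h0 | h0
  · rw [Finset.sum_eq_single ⟨i.val + 1, h0⟩
      (fun b _ hb => by
        have : b.val ≠ i.val + 1 := fun h => hb (Fin.ext h)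
        rw [if_neg (show ¬(i.val + 1 = b.val) by omega)]; simp)
      (fun h => absurd (Finset.mem_univ _) h)]
    rw [if_pos rfl]
    by_cases h : i = j
    · subst h
      rw [if_pos rfl, if_pos rfl, Complex.star_def, Complex.conj_ofReal, ← Complex.ofReal_mul,
        coef_sq (by omega)]
      push_cast; ring
    · have : i.val ≠ j.val := fun h' => h (Fin.ext h')
      rw [if_neg (show ¬(j.val + 1 = i.val + 1) by omega), if_neg h]; simp
  · have hin : i.val = n := by omega
    rw [Finset.sum_eq_zero fun k _ => by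
      rw [if_neg (show ¬(i.val + 1 = k.val) by omega)]; simp]
    split_ifs <;> simp [hin]

theorem comm_plus_minus : spinPlus n * (spinPlus n)ᴴ - (spinPlus n)ᴴ * spinPlus n =
    (2 : ℂ) • spinZ n := by
  rw [plus_minus, minus_plus, spinZ, diagonal_sub, ← diagonal_smul]
  congr 1; funext j
  simp only [Pi.smul_apply, smul_eq_mul]
  push_cast; ring

theorem comm_plus_z : spinPlus n * spinZ n - spinZ n * spinPlus n = -spinPlus n := by
  ext i j
  simp only [spinZ, Matrix.sub_apply, mul_diagonal, diagonal_mul, Matrix.neg_apply, spinPlus_apply]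
  split_ifs with h
  · have : ((i.val : ℝ) + 1) = (j.val : ℝ) := by exact_mod_cast h
    rw [← this]; push_cast; ring
  · simp

theorem spinZ_conjTranspose : (spinZ n)ᴴ = spinZ n := by
  simp [spinZ, diagonal_conjTranspose]

theorem spinMat_two : spinMat n 2 = spinZ n := rfl

theorem spinMat_herm (a : Fin 3) : (spinMat n a)ᴴ = spinMat n a := by
  fin_cases a
  · show ((1 / 2 : ℂ) • (spinPlus n + (spinPlus n)ᴴ))ᴴ = (1 / 2 : ℂ) • (spinPlus n + (spinPlus n)ᴴ)
    rw [conjTranspose_smul, conjTranspose_add, conjTranspose_conjTranspose,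
      add_comm ((spinPlus n)ᴴ) (spinPlus n)]
    simp
  · show ((-Complex.I / 2) • (spinPlus n - (spinPlus n)ᴴ))ᴴ =
      (-Complex.I / 2) • (spinPlus n - (spinPlus n)ᴴ)
    rw [conjTranspose_smul, conjTranspose_sub, conjTranspose_conjTranspose,
      show star (-Complex.I / 2) = -(-Complex.I / 2) by simp [Complex.conj_I, neg_div], neg_smul,
      ← smul_neg, neg_sub]
  · exact spinZ_conjTranspose

theorem spin_sq : ∑ a, spinMat n a * spinMat n a =
    diagonal fun _ : Fin (n + 1) => ((((n : ℝ) / 2) * ((n : ℝ) / 2 + 1) : ℝ) : ℂ) := by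
  have h : ∑ a, spinMat n a * spinMat n a =
      (1 / 2 : ℂ) • (spinPlus n * (spinPlus n)ᴴ + (spinPlus n)ᴴ * spinPlus n) + spinZ n * spinZ n := by
    rw [Fin.sum_univ_three]
    simp only [spinMat, cons_val_zero, cons_val_one, cons_val_two, head_cons, tail_cons]
    simp only [smul_mul_assoc, mul_smul_comm, smul_smul, add_mul, mul_add, sub_mul, mul_sub,
      smul_add, smul_sub]
    have e : (-Complex.I / 2) * (-Complex.I / 2) = -(1 / 4 : ℂ) := by
      linear_combination (1 / 4 : ℂ) * Complex.I_mul_I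
    rw [e]
    module
  rw [h, plus_minus, minus_plus, spinZ, diagonal_mul_diagonal, diagonal_add, ← diagonal_smul,
    diagonal_add]
  congr 1; funext j
  simp only [Pi.smul_apply, smul_eq_mul]
  push_cast; ring

section sites
variable {V : Type} [Fintype V] [DecidableEq V]

theorem sum_fiber {M : Type*} [AddCommMonoid M] (x : V) (σ : V → Fin (n + 1))
    (g : (V → Fin (n + 1)) → M) (hg : ∀ τ, ¬(∀ y, y ≠ x → σ y = τ y) → g τ = 0) :
    ∑ τ, g τ = ∑ b, g (Function.update σ x b) := by
  refine (Finset.sum_nbij' (s := Finset.univ) (t := Finset.univ.filter fun τ => ∀ y, y ≠ x → σ y = τ y)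
    (fun b => Function.update σ x b) (fun τ => τ x) ?_ ?_ ?_ ?_ (fun b _ => rfl)).trans ?_ |>.symm
  · intro b _; simp
    intro y hy; simp [Function.update_of_ne hy]
  · simp
  · intro b _; simp
  · intro τ hτ
    simp at hτ
    funext y
    by_cases h : y = x
    · subst h; simp
    · simp [Function.update_of_ne h, hτ y h]
  · exact Finset.sum_subset (Finset.subset_univ _) fun τ _ h => hg τ (by simpa using h)

theorem siteOp_mul (x : V) (A B : Matrix (Fin (n + 1)) (Fin (n + 1)) ℂ) :
    siteOp x (A * B) = siteOp x A * siteOp x B := by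
  ext σ τ
  rw [Matrix.mul_apply, sum_fiber x σ _ (fun ρ h => by simp [siteOp, h])]
  simp only [siteOp, Matrix.of_apply, Function.update_self]
  have h1 : ∀ b, ∀ y, y ≠ x → σ y = Function.update σ x b y := fun b y hy => by
    simp [Function.update_of_ne hy]
  have h2 : ∀ b, (∀ y, y ≠ x → Function.update σ x b y = τ y) ↔ (∀ y, y ≠ x → σ y = τ y) := fun b =>
    ⟨fun h y hy => by simpa [Function.update_of_ne hy] using h y hy,
     fun h y hy => by simpa [Function.update_of_ne hy] using h y hy⟩
  simp only [if_pos (h1 _), h2]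
  split_ifs with h
  · simp [Matrix.mul_apply]
  · simp

theorem siteOp_add (x : V) (A B : Matrix (Fin (n + 1)) (Fin (n + 1)) ℂ) :
    siteOp x (A + B) = siteOp x A + siteOp x B := by
  ext σ τ; simp only [siteOp, Matrix.of_apply, Matrix.add_apply]; split_ifs <;> simp

theorem siteOp_sub (x : V) (A B : Matrix (Fin (n + 1)) (Fin (n + 1)) ℂ) :
    siteOp x (A - B) = siteOp x A - siteOp x B := by
  ext σ τ; simp only [siteOp, Matrix.of_apply, Matrix.sub_apply]; split_ifs <;> simp

theorem siteOp_smul (x : V) (c : ℂ) (A : Matrix (Fin (n + 1)) (Fin (n + 1)) ℂ) :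
    siteOp x (c • A) = c • siteOp x A := by
  ext σ τ; simp only [siteOp, Matrix.of_apply, Matrix.smul_apply]; split_ifs <;> simp

theorem siteOp_neg (x : V) (A : Matrix (Fin (n + 1)) (Fin (n + 1)) ℂ) :
    siteOp x (-A) = -siteOp x A := by
  ext σ τ; simp only [siteOp, Matrix.of_apply, Matrix.neg_apply]; split_ifs <;> simp

theorem siteOp_sum {α : Type*} (x : V) (s : Finset α)
    (A : α → Matrix (Fin (n + 1)) (Fin (n + 1)) ℂ) :
    siteOp x (∑ a ∈ s, A a) = ∑ a ∈ s, siteOp x (A a) := by
  ext σ τ; simp only [siteOp, Matrix.of_apply, Matrix.sum_apply]; split_ifs <;> simp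

theorem siteOp_conjTranspose (x : V) (A : Matrix (Fin (n + 1)) (Fin (n + 1)) ℂ) :
    (siteOp x A)ᴴ = siteOp x Aᴴ := by
  ext σ τ
  simp only [siteOp, conjTranspose_apply, Matrix.of_apply]
  by_cases h : ∀ y, y ≠ x → τ y = σ y
  · rw [if_pos h, if_pos fun y hy => (h y hy).symm]
  · rw [if_neg h, if_neg fun h' => h fun y hy => (h' y hy).symm, star_zero]

theorem siteOp_diagonal (x : V) (d : Fin (n + 1) → ℂ) :
    siteOp x (diagonal d) = diagonal fun σ : V → Fin (n + 1) => d (σ x) := by
  ext σ τ
  simp only [siteOp, Matrix.of_apply, diagonal_apply]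
  by_cases h : σ = τ
  · subst h; simp
  · rw [if_neg h]
    split_ifs with h1 h2
    · exact absurd (funext fun y => if hy : y = x then hy ▸ h2 else h1 y hy) h
    · rfl
    · rfl

theorem siteOp_comm {x y : V} (hxy : x ≠ y) (A B : Matrix (Fin (n + 1)) (Fin (n + 1)) ℂ) :
    siteOp x A * siteOp y B = siteOp y B * siteOp x A := by
  ext σ τ
  have key : ∀ (x y : V), x ≠ y → ∀ (A B : Matrix (Fin (n + 1)) (Fin (n + 1)) ℂ),
      (siteOp x A * siteOp y B) σ τ =
        if ∀ z, z ≠ x → z ≠ y → σ z = τ z then A (σ x) (τ x) * B (σ y) (τ y) else 0 := by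
    intro x y hxy A B
    rw [Matrix.mul_apply, sum_fiber x σ _ (fun ρ h => by simp [siteOp, h])]
    simp only [siteOp, Matrix.of_apply, Function.update_self]
    rw [Finset.sum_eq_single (τ x)]
    · have h1 : ∀ z, z ≠ x → σ z = Function.update σ x (τ x) z := fun z hz => by
        simp [Function.update_of_ne hz]
      rw [if_pos h1, Function.update_of_ne (Ne.symm hxy)]
      have h2 : (∀ z, z ≠ y → Function.update σ x (τ x) z = τ z) ↔
          (∀ z, z ≠ x → z ≠ y → σ z = τ z) :=
        ⟨fun h z hz hz' => by simpa [Function.update_of_ne hz] using h z hz',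
         fun h z hz => by
          by_cases hzx : z = x
          · subst hzx; simp
          · simpa [Function.update_of_ne hzx] using h z hzx hz⟩
      simp only [h2]
      split_ifs <;> simp
    · intro b _ hb
      rw [if_neg (show ¬(∀ z, z ≠ y → Function.update σ x b z = τ z) from fun h =>
        hb (by simpa using h x hxy)), mul_zero]
    · simp
  rw [key x y hxy, key y x (Ne.symm hxy)]
  have : (∀ z, z ≠ x → z ≠ y → σ z = τ z) ↔ (∀ z, z ≠ y → z ≠ x → σ z = τ z) :=
    ⟨fun h z a b => h z b a, fun h z a b => h z b a⟩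
  simp only [this, mul_comm]

/-- `S⁺_x` -/
noncomputable def opP (n : ℕ) (x : V) : Matrix (V → Fin (n + 1)) (V → Fin (n + 1)) ℂ :=
  siteOp x (spinPlus n)

/-- `S⁻_x` -/
noncomputable def opQ (n : ℕ) (x : V) : Matrix (V → Fin (n + 1)) (V → Fin (n + 1)) ℂ :=
  siteOp x (spinPlus n)ᴴ

/-- `S³_x` -/
noncomputable def opZ (n : ℕ) (x : V) : Matrix (V → Fin (n + 1)) (V → Fin (n + 1)) ℂ :=
  siteOp x (spinZ n)

theorem opP_star (x : V) : (opP n x)ᴴ = opQ n x := siteOp_conjTranspose x _

theorem opZ_star (x : V) : (opZ n x)ᴴ = opZ n x := by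
  rw [opZ, siteOp_conjTranspose, spinZ_conjTranspose]

theorem spinDot_eq (x y : V) : spinDot n x y =
    opZ n x * opZ n y + (1 / 2 : ℂ) • (opP n x * opQ n y + opQ n x * opP n y) := by
  rw [spinDot, Fin.sum_univ_three]
  simp only [spinMat, cons_val_zero, cons_val_one, cons_val_two, head_cons, tail_cons]
  simp only [siteOp_smul, siteOp_add, siteOp_sub, smul_mul_assoc, mul_smul_comm, smul_smul, add_mul,
    mul_add, sub_mul, mul_sub, smul_add, smul_sub]
  have e : (-Complex.I / 2) * (-Complex.I / 2) = -(1 / 4 : ℂ) := by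
    linear_combination (1 / 4 : ℂ) * Complex.I_mul_I
  rw [e]
  simp only [opP, opQ, opZ]
  module

theorem spinDot_comm (x y : V) : spinDot n x y = spinDot n y x := by
  rcases eq_or_ne x y with rfl | h
  · rfl
  · exact Finset.sum_congr rfl fun a _ => siteOp_comm h _ _

theorem spinDot_herm {x y : V} (h : x ≠ y) : (spinDot n x y)ᴴ = spinDot n x y := by
  rw [spinDot, conjTranspose_sum]
  refine Finset.sum_congr rfl fun a _ => ?_
  rw [conjTranspose_mul, siteOp_conjTranspose, siteOp_conjTranspose, spinMat_herm,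
    siteOp_comm h]

/-- commutator -/
def br {R : Type*} [Ring R] (a b : R) : R := a * b - b * a

theorem br_PQ (x y : V) : br (opP n x) (opQ n y) = if x = y then (2 : ℂ) • opZ n x else 0 := by
  split_ifs with h
  · subst h
    rw [br, opP, opQ, opZ, ← siteOp_mul, ← siteOp_mul, ← siteOp_sub, comm_plus_minus, siteOp_smul]
  · rw [br, opP, opQ, siteOp_comm h, sub_self]

theorem br_PZ (x y : V) : br (opP n x) (opZ n y) = if x = y then -opP n x else 0 := by
  split_ifs with h
  · subst h
    rw [br, opP, opZ, ← siteOp_mul, ← siteOp_mul, ← siteOp_sub, comm_plus_z, siteOp_neg]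
  · rw [br, opP, opZ, siteOp_comm h, sub_self]

theorem br_PP (x y : V) : br (opP n x) (opP n y) = 0 := by
  rcases eq_or_ne x y with rfl | h
  · exact sub_self _
  · rw [br, opP, opP, siteOp_comm h, sub_self]

theorem br_ZQ (x y : V) : br (opZ n x) (opQ n y) = if x = y then -opQ n x else 0 := by
  have h := congrArg conjTranspose (br_PZ (n := n) y x)
  simp only [br, conjTranspose_sub, conjTranspose_mul, opP_star, opZ_star] at h
  rw [br]
  rcases eq_or_ne x y with rfl | hne
  · simpa [opP_star] using h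
  · simpa [hne, Ne.symm hne] using h

end sites

end Vale.Agent.P361
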