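import Vale.Agent.P361.Magnon

/-!
# Existence of the thermodynamic limit of the pressure
-/

open scoped BigOperators ComplexOrder Kronecker
open Matrix

set_option linter.unusedSectionVars false

namespace Vale.Agent.P361

/-- logarithm of the partition function -/
noncomputable def lz (V : Type) [Fintype V] [DecidableEq V] (n : ℕ) (r : V → V → Prop)
    [DecidableRel r] (β h : ℝ) : ℝ := Real.log (gz β (hamiltonian n r h))

theorem pressure_eq (n N : ℕ) (β h : ℝ) :
    pressure n N β h = lz (Box (2 * N + 1)) n (nearest (2 * N + 1)) β h / (β * ((2 * N + 1) ^ 3 : ℕ)) :=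
  rfl

theorem gz_reindex {κ κ' : Type*} [Fintype κ] [Fintype κ'] [DecidableEq κ] [DecidableEq κ']
    (e : κ' ≃ κ) (β : ℝ) (K : Matrix κ κ ℂ) : gz β (K.submatrix e e) = gz β K := by
  have hc : Continuous (Matrix.reindexAlgEquiv ℚ ℂ e.symm) :=
    (continuous_id.matrix_submatrix e e : Continuous fun A : Matrix κ κ ℂ => A.submatrix e e)
  have h1 : NormedSpace.exp (((-β : ℂ) • K).submatrix e e) =
      (NormedSpace.exp ((-β : ℂ) • K)).submatrix e e := by
    open scoped Norms.Operator in
    exact (NormedSpace.map_exp (Matrix.reindexAlgEquiv ℚ ℂ e.symm) hc ((-β : ℂ) • K)).symm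
  have h2 : (-β : ℂ) • K.submatrix e e = ((-β : ℂ) • K).submatrix e e := by ext; simp
  rw [gz, gz, h2, h1, Matrix.trace]
  congr 1
  exact Fintype.sum_equiv e _ _ fun i => rfl

variable {n : ℕ} {V W : Type} [Fintype V] [DecidableEq V] [Fintype W] [DecidableEq W]

theorem siteOp_reindex (e : W ≃ V) (x : W) (A : Matrix (Fin (n + 1)) (Fin (n + 1)) ℂ) :
    (siteOp (e x) A).submatrix (Equiv.arrowCongr e (Equiv.refl _))
      (Equiv.arrowCongr e (Equiv.refl _)) = siteOp x A := by
  ext σ τ
  simp only [siteOp, submatrix_apply, Matrix.of_apply, Equiv.arrowCongr_apply, Equiv.coe_refl,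
    Function.comp_apply, id_eq, Equiv.symm_apply_apply]
  refine if_congr ⟨fun h y hy => ?_, fun h y hy => ?_⟩ rfl rfl
  · simpa using h (e y) (fun he => hy (e.injective he))
  · exact h (e.symm y) (fun he => hy (by rw [← he]; simp))

theorem lz_iso (e : W ≃ V) (r : V → V → Prop) [DecidableRel r] (r' : W → W → Prop)
    [DecidableRel r'] (hr : ∀ x y, r' x y ↔ r (e x) (e y)) (β h : ℝ) :
    lz W n r' β h = lz V n r β h := by
  set E : (W → Fin (n + 1)) ≃ (V → Fin (n + 1)) := Equiv.arrowCongr e (Equiv.refl _)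
  have : hamiltonian n r' h = (hamiltonian n r h).submatrix E E := by
    have hop : ∀ x A, siteOp x A = (siteOp (e x) A).submatrix E E := fun x A =>
      (siteOp_reindex e x A).symm
    have hdot : ∀ x y, spinDot n x y = (spinDot n (e x) (e y)).submatrix E E := fun x y => by
      simp only [spinDot, hop]
      have : ∀ (a b : Fin 3), (siteOp (e x) (spinMat n a)).submatrix E E *
          (siteOp (e y) (spinMat n b)).submatrix E E =
          (siteOp (e x) (spinMat n a) * siteOp (e y) (spinMat n b)).submatrix E E := fun a b =>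
        Matrix.submatrix_mul_equiv _ _ _ _ _
      simp only [this]
      ext; simp [Matrix.sum_apply]
    ext σ τ
    simp only [hamiltonian, hop, submatrix_apply, Matrix.sub_apply, Matrix.smul_apply, Matrix.sum_apply]
    congr 1
    · congr 1
      refine Fintype.sum_equiv e _ _ fun x => Fintype.sum_equiv e _ _ fun y => ?_
      by_cases h' : r' x y
      · rw [if_pos h', if_pos ((hr x y).mp h'), hdot]; rfl
      · rw [if_neg h', if_neg fun h'' => h' ((hr x y).mpr h'')]; rfl
    · congr 1
      exact Fintype.sum_equiv e _ _ fun x => rfl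
  rw [lz, lz, this, gz_reindex]

/-- bonds inside the two summands only -/
def sumRel (r : V → V → Prop) (r' : W → W → Prop) : V ⊕ W → V ⊕ W → Prop
  | Sum.inl x, Sum.inl y => r x y
  | Sum.inr x, Sum.inr y => r' x y
  | _, _ => False

instance (r : V → V → Prop) (r' : W → W → Prop) [DecidableRel r] [DecidableRel r'] :
    DecidableRel (sumRel r r') := fun x y => by
  cases x <;> cases y <;> simp only [sumRel] <;> infer_instance

theorem lz_sum (r : V → V → Prop) [DecidableRel r] (r' : W → W → Prop) [DecidableRel r']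
    (hs : ∀ x y, r x y → r y x) (hi : ∀ x, ¬r x x) (hs' : ∀ x y, r' x y → r' y x)
    (hi' : ∀ x, ¬r' x x) (β h : ℝ) :
    lz (V ⊕ W) n (sumRel r r') β h = lz V n r β h + lz W n r' β h := by
  set E : ((V → Fin (n + 1)) × (W → Fin (n + 1))) ≃ (V ⊕ W → Fin (n + 1)) :=
    (Equiv.sumArrowEquivProdArrow V W (Fin (n + 1))).symm
  have hl : ∀ x A, (siteOp (Sum.inl x : V ⊕ W) A).submatrix E E =
      siteOp x A ⊗ₖ (1 : Matrix (W → Fin (n + 1)) (W → Fin (n + 1)) ℂ) := fun x A => by
    ext ⟨σ, σ'⟩ ⟨τ, τ'⟩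
    simp only [siteOp, submatrix_apply, Matrix.of_apply, kroneckerMap_apply, Matrix.one_apply]
    simp only [E, Equiv.sumArrowEquivProdArrow_symm_apply_inl]
    by_cases h1 : ∀ y, y ≠ x → σ y = τ y <;> by_cases h2 : σ' = τ'
    · rw [if_pos h1, if_pos h2, mul_one, if_pos]
      rintro (y | y) hy
      · exact h1 y (fun e => hy (by rw [e]))
      · exact congrFun h2 y
    · rw [if_neg h2, mul_zero, if_neg]
      intro hh; exact h2 (funext fun y => hh (Sum.inr y) (by simp))
    · rw [if_neg h1, zero_mul, if_neg]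
      intro hh; exact h1 fun y hy => hh (Sum.inl y) (by simp [hy])
    · rw [if_neg h1, zero_mul, if_neg]
      intro hh; exact h1 fun y hy => hh (Sum.inl y) (by simp [hy])
  have hr : ∀ x A, (siteOp (Sum.inr x : V ⊕ W) A).submatrix E E =
      (1 : Matrix (V → Fin (n + 1)) (V → Fin (n + 1)) ℂ) ⊗ₖ siteOp x A := fun x A => by
    ext ⟨σ, σ'⟩ ⟨τ, τ'⟩
    simp only [siteOp, submatrix_apply, Matrix.of_apply, kroneckerMap_apply, Matrix.one_apply]
    simp only [E, Equiv.sumArrowEquivProdArrow_symm_apply_inr]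
    by_cases h1 : ∀ y, y ≠ x → σ' y = τ' y <;> by_cases h2 : σ = τ
    · rw [if_pos h1, if_pos h2, one_mul, if_pos]
      rintro (y | y) hy
      · exact congrFun h2 y
      · exact h1 y (fun e => hy (by rw [e]))
    · rw [if_neg h2, zero_mul, if_neg]
      intro hh; exact h2 (funext fun y => hh (Sum.inl y) (by simp))
    · rw [if_neg h1, mul_zero, if_neg]
      intro hh; exact h1 fun y hy => hh (Sum.inr y) (by simp [hy])
    · rw [if_neg h1, mul_zero, if_neg]
      intro hh; exact h1 fun y hy => hh (Sum.inr y) (by simp [hy])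
  have hK : (hamiltonian n (sumRel r r') h).submatrix E E =
      hamiltonian n r h ⊗ₖ (1 : Matrix (W → Fin (n + 1)) (W → Fin (n + 1)) ℂ) +
        (1 : Matrix (V → Fin (n + 1)) (V → Fin (n + 1)) ℂ) ⊗ₖ hamiltonian n r' h := by
    have hd : ∀ x y, (spinDot n (Sum.inl x : V ⊕ W) (Sum.inl y)).submatrix E E =
        spinDot n x y ⊗ₖ (1 : Matrix (W → Fin (n + 1)) (W → Fin (n + 1)) ℂ) := fun x y => by
      have : ∀ a, (siteOp (Sum.inl x : V ⊕ W) (spinMat n a) *
          siteOp (Sum.inl y) (spinMat n a)).submatrix E E =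
          (siteOp x (spinMat n a) * siteOp y (spinMat n a)) ⊗ₖ
            (1 : Matrix (W → Fin (n + 1)) (W → Fin (n + 1)) ℂ) := fun a => by
        rw [← Matrix.submatrix_mul_equiv _ _ E E E, hl, hl, ← mul_kronecker_mul, Matrix.one_mul]
      ext i j
      simp only [spinDot, submatrix_apply, Matrix.sum_apply, kroneckerMap_apply, Finset.sum_mul]
      exact Finset.sum_congr rfl fun a _ => congrFun (congrFun (this a) i) j
    have hd' : ∀ x y, (spinDot n (Sum.inr x : V ⊕ W) (Sum.inr y)).submatrix E E =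
        (1 : Matrix (V → Fin (n + 1)) (V → Fin (n + 1)) ℂ) ⊗ₖ spinDot n x y := fun x y => by
      have : ∀ a, (siteOp (Sum.inr x : V ⊕ W) (spinMat n a) *
          siteOp (Sum.inr y) (spinMat n a)).submatrix E E =
          (1 : Matrix (V → Fin (n + 1)) (V → Fin (n + 1)) ℂ) ⊗ₖ
            (siteOp x (spinMat n a) * siteOp y (spinMat n a)) := fun a => by
        rw [← Matrix.submatrix_mul_equiv _ _ E E E, hr, hr, ← mul_kronecker_mul, Matrix.one_mul]
      ext i j
      simp only [spinDot, submatrix_apply, Matrix.sum_apply, kroneckerMap_apply, Finset.mul_sum]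
      exact Finset.sum_congr rfl fun a _ => congrFun (congrFun (this a) i) j
    ext i j
    simp only [hamiltonian, submatrix_apply, Matrix.sub_apply, Matrix.smul_apply, Matrix.sum_apply,
      Matrix.add_apply, kroneckerMap_apply, Fintype.sum_sum_type]
    have a3 : ∀ x y, (if sumRel r r' (Sum.inl x) (Sum.inr y) then spinDot n (Sum.inl x : V ⊕ W) (Sum.inr y) else 0) (E i) (E j) = 0 :=
      fun x y => by rw [if_neg (show ¬sumRel r r' (Sum.inl x) (Sum.inr y) from id)]; rfl
    have a4 : ∀ x y, (if sumRel r r' (Sum.inr x) (Sum.inl y) then spinDot n (Sum.inr x : V ⊕ W) (Sum.inl y) else 0) (E i) (E j) = 0 :=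
      fun x y => by rw [if_neg (show ¬sumRel r r' (Sum.inr x) (Sum.inl y) from id)]; rfl
    have a1 : ∀ x y, (if sumRel r r' (Sum.inl x) (Sum.inl y) then spinDot n (Sum.inl x : V ⊕ W) (Sum.inl y) else 0) (E i) (E j) =
        (if r x y then spinDot n x y else 0) i.1 j.1 *
          (1 : Matrix (W → Fin (n + 1)) (W → Fin (n + 1)) ℂ) i.2 j.2 := fun x y => by
      by_cases hh : r x y
      · rw [if_pos (show sumRel r r' (Sum.inl x) (Sum.inl y) from hh), if_pos hh]
        exact congrFun (congrFun (hd x y) i) j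
      · rw [if_neg (show ¬sumRel r r' (Sum.inl x) (Sum.inl y) from hh), if_neg hh]; simp
    have a2 : ∀ x y, (if sumRel r r' (Sum.inr x) (Sum.inr y) then spinDot n (Sum.inr x : V ⊕ W) (Sum.inr y) else 0) (E i) (E j) =
        (1 : Matrix (V → Fin (n + 1)) (V → Fin (n + 1)) ℂ) i.1 j.1 *
          (if r' x y then spinDot n x y else 0) i.2 j.2 := fun x y => by
      by_cases hh : r' x y
      · rw [if_pos (show sumRel r r' (Sum.inr x) (Sum.inr y) from hh), if_pos hh]
        exact congrFun (congrFun (hd' x y) i) j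
      · rw [if_neg (show ¬sumRel r r' (Sum.inr x) (Sum.inr y) from hh), if_neg hh]; simp
    have b1 : ∀ x A, siteOp (Sum.inl x : V ⊕ W) A (E i) (E j) =
        siteOp x A i.1 j.1 * (1 : Matrix (W → Fin (n + 1)) (W → Fin (n + 1)) ℂ) i.2 j.2 := fun x A =>
      congrFun (congrFun (hl x A) i) j
    have b2 : ∀ x A, siteOp (Sum.inr x : V ⊕ W) A (E i) (E j) =
        (1 : Matrix (V → Fin (n + 1)) (V → Fin (n + 1)) ℂ) i.1 j.1 * siteOp x A i.2 j.2 := fun x A =>
      congrFun (congrFun (hr x A) i) j
    simp only [a1, a2, a3, a4, b1, b2, Finset.sum_const_zero, add_zero, zero_add, ← Finset.sum_mul, ← Finset.mul_sum, smul_eq_mul]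
    ring
  have hexp : gz β ((hamiltonian n (sumRel r r') h).submatrix E E) =
      gz β (hamiltonian n r h) * gz β (hamiltonian n r' h) := by
    set P := (-β : ℂ) • hamiltonian n r h
    set Q := (-β : ℂ) • hamiltonian n r' h
    have h1 : (-β : ℂ) • (hamiltonian n (sumRel r r') h).submatrix E E =
        P ⊗ₖ (1 : Matrix (W → Fin (n + 1)) (W → Fin (n + 1)) ℂ) +
          (1 : Matrix (V → Fin (n + 1)) (V → Fin (n + 1)) ℂ) ⊗ₖ Q := by
      rw [hK, smul_add, ← smul_kronecker, ← kronecker_smul]
    let fl : Matrix (V → Fin (n + 1)) (V → Fin (n + 1)) ℂ →+*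
        Matrix ((V → Fin (n + 1)) × (W → Fin (n + 1))) ((V → Fin (n + 1)) × (W → Fin (n + 1))) ℂ :=
      { toFun := fun A => A ⊗ₖ 1
        map_one' := one_kronecker_one
        map_mul' := fun A B => by rw [← mul_kronecker_mul, Matrix.one_mul]
        map_zero' := zero_kronecker _
        map_add' := fun A B => add_kronecker A B _ }
    let fr : Matrix (W → Fin (n + 1)) (W → Fin (n + 1)) ℂ →+*
        Matrix ((V → Fin (n + 1)) × (W → Fin (n + 1))) ((V → Fin (n + 1)) × (W → Fin (n + 1))) ℂ :=
      { toFun := fun A => (1 : Matrix (V → Fin (n + 1)) (V → Fin (n + 1)) ℂ) ⊗ₖ A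
        map_one' := one_kronecker_one
        map_mul' := fun A B => by rw [← mul_kronecker_mul, Matrix.one_mul]
        map_zero' := kronecker_zero _
        map_add' := fun A B => kronecker_add _ A B }
    have hcl : Continuous fl := by
      refine continuous_pi fun i => continuous_pi fun j => ?_
      exact (continuous_id.matrix_elem i.1 j.1).mul continuous_const
    have hcr : Continuous fr := by
      refine continuous_pi fun i => continuous_pi fun j => ?_
      exact continuous_const.mul (continuous_id.matrix_elem i.2 j.2)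
    have hcomm : Commute (P ⊗ₖ (1 : Matrix (W → Fin (n + 1)) (W → Fin (n + 1)) ℂ))
        ((1 : Matrix (V → Fin (n + 1)) (V → Fin (n + 1)) ℂ) ⊗ₖ Q) := by
      rw [Commute, SemiconjBy, ← mul_kronecker_mul, ← mul_kronecker_mul]; simp
    have e1 : NormedSpace.exp (P ⊗ₖ (1 : Matrix (W → Fin (n + 1)) (W → Fin (n + 1)) ℂ)) =
        NormedSpace.exp P ⊗ₖ 1 := by
      open scoped Norms.Operator in
      exact (NormedSpace.map_exp fl hcl P).symm
    have e2 : NormedSpace.exp ((1 : Matrix (V → Fin (n + 1)) (V → Fin (n + 1)) ℂ) ⊗ₖ Q) =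
        (1 : Matrix (V → Fin (n + 1)) (V → Fin (n + 1)) ℂ) ⊗ₖ NormedSpace.exp Q := by
      open scoped Norms.Operator in
      exact (NormedSpace.map_exp fr hcr Q).symm
    have hreP : (NormedSpace.exp P).trace.im = 0 := by
      have hH := hamiltonian_herm (n := n) r hs hi h
      have := trace_exp_mul hH β (1 : Matrix _ _ ℂ)
      rw [Matrix.mul_one] at this
      rw [this, Complex.im_sum]
      refine Finset.sum_eq_zero fun k _ => ?_
      rw [rot, Matrix.mul_one, unit_mul' hH, Matrix.one_apply_eq, mul_one, Complex.ofReal_im]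
    rw [gz, h1, Matrix.exp_add_of_commute _ _ hcomm, e1, e2, ← mul_kronecker_mul, Matrix.one_mul,
      Matrix.mul_one, trace_kronecker, Complex.mul_re, hreP]
    simp [gz, P, Q]
  rw [gz_reindex] at hexp
  rw [lz, lz, lz, hexp, Real.log_mul]
  · exact (gz_pos (hamiltonian_herm r hs hi h) β).ne'
  · exact (gz_pos (hamiltonian_herm r' hs' hi' h) β).ne'

theorem gexp_dot_le {K : Matrix (V → Fin (n + 1)) (V → Fin (n + 1)) ℂ} (hK : K.IsHermitian) {β : ℝ}
    {x y : V} (hxy : x ≠ y) :
    |gexp β K (spinDot n x y)| ≤ (n : ℝ) / 2 * ((n : ℝ) / 2 + 1) := by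
  have hsq : ∀ z : V, ∑ a, gexp β K (siteOp z (spinMat n a) * siteOp z (spinMat n a)) =
      (n : ℝ) / 2 * ((n : ℝ) / 2 + 1) := fun z => by
    simp only [← siteOp_mul, ← gexp_sum, ← siteOp_sum, spin_sq, siteOp_diagonal]
    rw [show (diagonal fun _ : V → Fin (n + 1) =>
      ((((n : ℝ) / 2) * ((n : ℝ) / 2 + 1) : ℝ) : ℂ)) =
        ((((n : ℝ) / 2) * ((n : ℝ) / 2 + 1) : ℝ) : ℂ) • 1 by
      rw [← diagonal_one, ← diagonal_smul]; congr 1; funext σ; simp]
    rw [gexp_smul, gexp_one hK, mul_one]
  have per : ∀ a, |gexp β K (siteOp x (spinMat n a) * siteOp y (spinMat n a))| ≤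
      (gexp β K (siteOp x (spinMat n a) * siteOp x (spinMat n a)) +
        gexp β K (siteOp y (spinMat n a) * siteOp y (spinMat n a))) / 2 := by
    intro a
    set P := siteOp x (spinMat n a)
    set Q := siteOp y (spinMat n a)
    have hP : Pᴴ = P := by rw [siteOp_conjTranspose, spinMat_herm]
    have hQ : Qᴴ = Q := by rw [siteOp_conjTranspose, spinMat_herm]
    have hc : Q * P = P * Q := (siteOp_comm hxy _ _).symm
    have h1 := gexp_star_mul_self_nonneg hK (β := β) (P + Q)
    have h2 := gexp_star_mul_self_nonneg hK (β := β) (P - Q)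
    simp only [conjTranspose_add, conjTranspose_sub, hP, hQ, Matrix.add_mul, Matrix.mul_add,
      Matrix.sub_mul, Matrix.mul_sub, gexp_add, gexp_sub, hc] at h1 h2
    rw [abs_le]; constructor <;> linarith
  rw [spinDot, gexp_sum]
  refine (Finset.abs_sum_le_sum_abs _ _).trans ((Finset.sum_le_sum fun a _ => per a).trans ?_)
  rw [← Finset.sum_div, Finset.sum_add_distrib, hsq, hsq]
  linarith

open Classical in
theorem lz_perturb (r r' : V → V → Prop) [DecidableRel r] [DecidableRel r']
    (hs : ∀ x y, r x y → r y x) (hi : ∀ x, ¬r x x) (hs' : ∀ x y, r' x y → r' y x)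
    (hi' : ∀ x, ¬r' x x) {β : ℝ} (hβ : 0 ≤ β) (h : ℝ) :
    |lz V n r β h - lz V n r' β h| ≤ β * ((n : ℝ) / 2 * ((n : ℝ) / 2 + 1)) / 2 *
      (Finset.univ.filter fun p : V × V => ¬(r p.1 p.2 ↔ r' p.1 p.2)).card := by
  set C := (n : ℝ) / 2 * ((n : ℝ) / 2 + 1)
  set B := (Finset.univ.filter fun p : V × V => ¬(r p.1 p.2 ↔ r' p.1 p.2))
  have key : ∀ (a b : V → V → Prop) [DecidableRel a] [DecidableRel b],
      (∀ x y, a x y → a y x) → (∀ x, ¬a x x) → (∀ x y, b x y → b y x) → (∀ x, ¬b x x) →
      (∀ p : V × V, ¬(a p.1 p.2 ↔ b p.1 p.2) ↔ p ∈ B) →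
      lz V n a β h - lz V n b β h ≤ β * C / 2 * B.card := by
    intro a b _ _ ha ha' hb hb' hB
    have hK := hamiltonian_herm (n := n) a ha ha' h
    have hP := log_gz_ge hK (β := β) (hamiltonian_herm (n := n) b hb hb' h)
    have hg : gexp β (hamiltonian n a h) (hamiltonian n b h - hamiltonian n a h) ≤ C / 2 * B.card := by
      have e : hamiltonian n b h - hamiltonian n a h = ((-(1 / 2) : ℝ) : ℂ) •
          (∑ x, ∑ y, ((if b x y then spinDot n x y else 0) - (if a x y then spinDot n x y else 0))) := by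
        simp only [hamiltonian_eq, Finset.sum_sub_distrib, smul_sub]; abel
      rw [e, gexp_smul, gexp_sum]
      simp only [gexp_sum]
      rw [← Fintype.sum_prod_type' (f := fun x y => gexp β (hamiltonian n a h)
        ((if b x y then spinDot n x y else 0) - (if a x y then spinDot n x y else 0)))]
      have : -(B.card * C) ≤ ∑ p : V × V, gexp β (hamiltonian n a h)
          ((if b p.1 p.2 then spinDot n p.1 p.2 else 0) - (if a p.1 p.2 then spinDot n p.1 p.2 else 0)) := by
        refine le_trans (le_of_eq ?_) (Finset.sum_le_sum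
          (f := fun p : V × V => if p ∈ B then -C else 0) fun p _ => ?_)
        · simp
        · by_cases h1 : a p.1 p.2 <;> by_cases h2 : b p.1 p.2
          · rw [if_neg (fun hm => ((hB p).mpr hm) (iff_of_true h1 h2)), if_pos h1, if_pos h2, sub_self, gexp_zero]
          · rw [if_pos ((hB p).mp fun hh => h2 (hh.mp h1)), if_pos h1, if_neg h2, zero_sub, gexp_neg]
            have := abs_le.mp (gexp_dot_le hK (β := β) (x := p.1) (y := p.2)
              (fun e => ha' _ (e ▸ h1 : a p.1 p.1)))
            linarith [show C = (n : ℝ) / 2 * ((n : ℝ) / 2 + 1) from rfl]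
          · rw [if_pos ((hB p).mp fun hh => h1 (hh.mpr h2)), if_neg h1, if_pos h2, sub_zero]
            have := abs_le.mp (gexp_dot_le hK (β := β) (x := p.1) (y := p.2)
              (fun e => hb' _ (e ▸ h2 : b p.1 p.1)))
            linarith [show C = (n : ℝ) / 2 * ((n : ℝ) / 2 + 1) from rfl]
          · rw [if_neg (fun hm => ((hB p).mpr hm) (iff_of_false h1 h2)), if_neg h1, if_neg h2, sub_self, gexp_zero]
      linarith
    have := mul_le_mul_of_nonneg_left hg hβ
    rw [lz, lz]; linarith
  rw [abs_le]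
  constructor
  · have := key r' r hs' hi' hs hi (fun p => by simp [B, iff_comm])
    linarith
  · exact key r r' hs hi hs' hi' (fun p => by simp [B])

/-- no bonds -/
def noBond (V : Type) : V → V → Prop := fun _ _ => False

instance (V : Type) : DecidableRel (noBond V) := fun _ _ => isFalse id

theorem lz_noBond (β h : ℝ) : |lz V n (noBond V) β h| ≤
    (Real.log ((n : ℝ) + 1) + |β * h| * ((n : ℝ) / 2)) * Fintype.card V := by
  set s : Fin (n + 1) → ℝ := fun j => (n : ℝ) / 2 - (j.val : ℝ)
  set z := ∑ j, Real.exp (β * h * s j) with hz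
  have hK : hamiltonian n (noBond V) h =
      diagonal fun σ : V → Fin (n + 1) => ((-(h * ∑ x, s (σ x)) : ℝ) : ℂ) := by
    ext σ τ
    rw [hamiltonian_eq]
    simp only [Matrix.sub_apply, Matrix.smul_apply, Matrix.sum_apply, opZ, spinZ, siteOp_diagonal,
      noBond, diagonal_apply]
    rcases eq_or_ne σ τ with rfl | hne
    · simp [s]
    · simp [s, hne]
  have hgz : gz β (hamiltonian n (noBond V) h) = z ^ Fintype.card V := by
    rw [gz, hK, ← diagonal_smul, Matrix.exp_diagonal, trace_diagonal, Complex.re_sum]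
    rw [hz, ← Finset.card_univ, ← Finset.prod_const, Fintype.prod_sum]
    refine Finset.sum_congr rfl fun σ _ => ?_
    rw [Pi.coe_exp]
    simp only [Pi.smul_apply, smul_eq_mul]
    rw [← congrFun Complex.exp_eq_exp_ℂ, ← Complex.ofReal_neg, ← Complex.ofReal_mul,
      Complex.exp_ofReal_re, ← Real.exp_sum, Finset.mul_sum, ← Finset.sum_neg_distrib, Finset.mul_sum]
    congr 1
    exact Finset.sum_congr rfl fun x _ => by ring
  have hzlo : Real.exp (-(|β * h| * ((n : ℝ) / 2))) ≤ z := by
    refine le_trans ?_ (Finset.single_le_sum (fun j _ => (Real.exp_pos _).le) (Finset.mem_univ 0))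
    rw [Real.exp_le_exp]
    have := mul_le_mul_of_nonneg_left (spinZ_range (n := n) 0) (abs_nonneg (β * h))
    rw [← abs_mul] at this
    linarith [neg_abs_le (β * h * s 0)]
  have hzhi : z ≤ ((n : ℝ) + 1) * Real.exp (|β * h| * ((n : ℝ) / 2)) := by
    calc z ≤ ∑ _j : Fin (n + 1), Real.exp (|β * h| * ((n : ℝ) / 2)) := Finset.sum_le_sum fun j _ => by
          rw [Real.exp_le_exp]
          have := mul_le_mul_of_nonneg_left (spinZ_range (n := n) j) (abs_nonneg (β * h))
          rw [← abs_mul] at this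
          exact (le_abs_self _).trans this
      _ = _ := by simp
  have hz0 : 0 < z := lt_of_lt_of_le (Real.exp_pos _) hzlo
  have h1 : -(|β * h| * ((n : ℝ) / 2)) ≤ Real.log z := by
    rw [← Real.log_exp (-(|β * h| * ((n : ℝ) / 2)))]; exact Real.log_le_log (Real.exp_pos _) hzlo
  have h2 : Real.log z ≤ Real.log ((n : ℝ) + 1) + |β * h| * ((n : ℝ) / 2) := by
    have := Real.log_le_log hz0 hzhi
    rwa [Real.log_mul (by positivity) (Real.exp_pos _).ne', Real.log_exp] at this
  have h3 : 0 ≤ Real.log ((n : ℝ) + 1) := Real.log_nonneg (le_add_of_nonneg_left (Nat.cast_nonneg n))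
  rw [lz, hgz, Real.log_pow, abs_mul, Nat.abs_cast, mul_comm]
  exact mul_le_mul_of_nonneg_right (abs_le.mpr ⟨by linarith, h2⟩) (Nat.cast_nonneg _)

theorem lz_copies (r : V → V → Prop) [DecidableRel r] (hs : ∀ x y, r x y → r y x) (hi : ∀ x, ¬r x x)
    (β h : ℝ) : ∀ q : ℕ, lz (Fin q × V) n (fun a b => a.1 = b.1 ∧ r a.2 b.2) β h = q * lz V n r β h := by
  intro q
  induction q with
  | zero =>
    have : IsEmpty (Fin 0 × V) := inferInstance
    have h0 := lz_perturb (V := Fin 0 × V) (n := n) (fun a b => a.1 = b.1 ∧ r a.2 b.2) (noBond _)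
      (fun x _ _ => x.1.elim0) (fun x => x.1.elim0) (fun _ _ hh => hh.elim) (fun _ hh => hh.elim)
      (le_refl 0) h
    have h1 := lz_noBond (V := Fin 0 × V) (n := n) β h
    simp at h1
    have h2 : lz (Fin 0 × V) n (fun a b => a.1 = b.1 ∧ r a.2 b.2) β h = lz (Fin 0 × V) n (noBond _) β h :=
      lz_iso (Equiv.refl _) _ _ (fun x y => x.1.elim0) β h
    rw [h2, h1]; simp
  | succ q ih =>
    let e : V ⊕ (Fin q × V) ≃ Fin (q + 1) × V :=
      { toFun := Sum.elim (fun v => (0, v)) (fun p => (p.1.succ, p.2))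
        invFun := fun p => if h : p.1 = 0 then Sum.inl p.2 else Sum.inr (p.1.pred h, p.2)
        left_inv := by rintro (v | ⟨i, v⟩) <;> simp [Fin.succ_ne_zero]
        right_inv := by rintro ⟨i, v⟩; by_cases hh : i = 0 <;> simp [hh] }
    have := lz_iso (n := n) e (fun a b => a.1 = b.1 ∧ r a.2 b.2)
      (sumRel r (fun a b => a.1 = b.1 ∧ r a.2 b.2)) (fun x y => by
        rcases x with v | ⟨i, v⟩ <;> rcases y with w | ⟨j, w⟩ <;>
          simp [e, sumRel, Fin.succ_inj, Fin.succ_ne_zero, eq_comm (a := (0 : Fin (q + 1)))]) β h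
    rw [← this, lz_sum r _ hs hi (fun a b hab => ⟨hab.1.symm, hs _ _ hab.2⟩)
      (fun a haa => hi _ haa.2), ih]
    push_cast; ring

end Vale.Agent.P361
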